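import Vale.Agent.P142.H838.PosMean

/-!
P142, endpoint form of Brennan's conjecture: area integrals over annuli in polar coordinates and
the weak type estimate `|{|f'| > l}| ≤ C l^(-2/3)`.
-/

open Complex MeasureTheory Metric Set Filter Topology
open scoped Real ComplexConjugate ENNReal

namespace Vale.Agent.P142.H838

noncomputable section

variable {f : ℂ → ℂ} {t r r₀ : ℝ}

lemma MM_lintegral (hf : Univ f) (t : ℝ) (hr0 : 0 ≤ r) (hr1 : r < 1) :
    ∫⁻ θ in Ioo (-π) π, ENNReal.ofReal (‖deriv f (circleMap 0 r θ)‖ ^ t) =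
      ENNReal.ofReal (MM f t r) := by
  have hd : ∀ z ∈ ball (0 : ℂ) 1, deriv f z ≠ 0 := fun z hz => univ_deriv_ne_zero hf hz
  have hc := continuous_weight (t := t) hf.1 hd hr0 hr1
  have hint : IntegrableOn (fun θ => ‖deriv f (circleMap 0 r θ)‖ ^ t) (Ioo (-π) π) :=
    (hc.integrableOn_Icc (a := -π) (b := π)).mono_set Ioo_subset_Icc_self
  rw [MM, intervalIntegral.integral_of_le (by linarith only [Real.pi_pos]),
    integral_Ioc_eq_integral_Ioo, ofReal_integral_eq_lintegral_ofReal hint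
      (Eventually.of_forall fun θ => Real.rpow_nonneg (norm_nonneg _) _)]

lemma annulus_polar (hf : Univ f) (t : ℝ) (h0 : 0 ≤ r₀) :
    ∫⁻ z in {z | r₀ < ‖z‖} ∩ ball (0 : ℂ) 1, ENNReal.ofReal (‖deriv f z‖ ^ t) =
      ∫⁻ r in Ioo r₀ 1, ENNReal.ofReal (r * MM f t r) := by
  have hmA : MeasurableSet {z : ℂ | r₀ < ‖z‖} := measurableSet_lt measurable_const measurable_norm
  have hm : Measurable (fun z => ENNReal.ofReal (‖deriv f z‖ ^ t)) :=
    ENNReal.measurable_ofReal.comp ((measurable_deriv f).norm.pow_const _)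
  have e1 : ∫⁻ z in {z | r₀ < ‖z‖} ∩ ball (0 : ℂ) 1, ENNReal.ofReal (‖deriv f z‖ ^ t) =
      ∫⁻ z in ball (0 : ℂ) 1, ({z : ℂ | r₀ < ‖z‖}).indicator
        (fun z => ENNReal.ofReal (‖deriv f z‖ ^ t)) z := by
    rw [lintegral_indicator hmA, Measure.restrict_restrict hmA]
  rw [e1, FF.lintegral_ball_polar (hm.indicator hmA)]
  have e2 : ∀ r ∈ Ioo (0 : ℝ) 1, ENNReal.ofReal r * ∫⁻ θ in Ioo (-π) π,
      ({z : ℂ | r₀ < ‖z‖}).indicator (fun z => ENNReal.ofReal (‖deriv f z‖ ^ t)) (circleMap 0 r θ) =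
      (Ioi r₀).indicator (fun r => ENNReal.ofReal (r * MM f t r)) r := by
    intro r hr
    have hn : ∀ θ : ℝ, ‖circleMap 0 r θ‖ = r := fun θ => by
      rw [norm_circleMap_zero, abs_of_pos hr.1]
    by_cases h : r₀ < r
    · rw [indicator_of_mem (show r ∈ Ioi r₀ from h), ENNReal.ofReal_mul hr.1.le,
        ← MM_lintegral hf t hr.1.le hr.2]
      congr 1
      refine lintegral_congr fun θ => ?_
      rw [indicator_of_mem]
      change r₀ < ‖circleMap 0 r θ‖
      rw [hn]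
      exact h
    · rw [indicator_of_notMem (show r ∉ Ioi r₀ from h)]
      have e3 : ∀ θ : ℝ, ({z : ℂ | r₀ < ‖z‖}).indicator
          (fun z => ENNReal.ofReal (‖deriv f z‖ ^ t)) (circleMap 0 r θ) = 0 := by
        intro θ
        rw [indicator_of_notMem]
        change ¬ r₀ < ‖circleMap 0 r θ‖
        rw [hn]
        exact h
      simp only [e3, lintegral_zero, mul_zero]
  rw [setLIntegral_congr_fun measurableSet_Ioo e2, lintegral_indicator measurableSet_Ioi,
    Measure.restrict_restrict measurableSet_Ioi]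
  congr 2
  ext r
  simp only [mem_inter_iff, mem_Ioi, mem_Ioo]
  constructor
  · rintro ⟨a, b, c⟩
    exact ⟨a, c⟩
  · rintro ⟨a, b⟩
    exact ⟨a, by linarith, b⟩

lemma lintegral_one_sub_rpow {δ s : ℝ} (hδ : 0 < δ) (hs : -1 < s) :
    ∫⁻ r in Ioo (1 - δ) 1, ENNReal.ofReal ((1 - r) ^ s) =
      ENNReal.ofReal (δ ^ (s + 1) / (s + 1)) := by
  have h1 : IntervalIntegrable (fun x : ℝ => x ^ s) volume 0 δ :=
    intervalIntegral.intervalIntegrable_rpow' hs
  have h2 := (h1.comp_sub_left 1)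
  simp only [sub_zero] at h2
  have h3 : IntegrableOn (fun x : ℝ => (1 - x) ^ s) (Ioo (1 - δ) 1) := by
    have := h2.symm.1
    exact this.mono_set Ioo_subset_Ioc_self
  rw [← ofReal_integral_eq_lintegral_ofReal h3 ((ae_restrict_iff' measurableSet_Ioo).mpr
    (Eventually.of_forall fun r hr => Real.rpow_nonneg (by linarith [hr.2]) _))]
  congr 1
  rw [← integral_Ioc_eq_integral_Ioo, ← intervalIntegral.integral_of_le (by linarith),
    intervalIntegral.integral_comp_sub_left (fun x => x ^ s) 1]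
  simp only [sub_self, sub_sub_cancel]
  rw [integral_rpow (Or.inl hs), Real.zero_rpow (by linarith), sub_zero]

/-- Weak type estimate at the upper end: `|{|f'| > l}| ≤ C l^(-2/3)` on the class `S`. -/
theorem weak_high : ∃ C : ℝ, 0 < C ∧ ∀ f ∈ ClassS, ∀ l : ℝ, 0 < l →
    volume {z | z ∈ ball (0 : ℂ) 1 ∧ l < ‖deriv f z‖} ≤
      ENNReal.ofReal (C * l ^ (-(2 / 3) : ℝ)) := by
  obtain ⟨C0, hC0⟩ := pos_mean' (t := 3 / 5) (by norm_num) (by norm_num)
  set C1 : ℝ := max C0 1 with hC1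
  have hC11 : 0 < C1 := lt_max_of_lt_right one_pos
  have hpi := Real.pi_pos
  set q : ℝ := (32 : ℝ) ^ (1 / 15 : ℝ) with hq
  have hq0 : 0 < q := by positivity
  refine ⟨5 * C1 * q + 64 * π, by positivity, fun f hfS l hl => ?_⟩
  have hf := univ_of_classS hfS
  have hl0 : 0 < l ^ (-(2 / 3) : ℝ) := Real.rpow_pos_of_pos hl _
  rcases le_or_gt l 256 with h | h
  · have hsub : {z | z ∈ ball (0 : ℂ) 1 ∧ l < ‖deriv f z‖} ⊆ ball (0 : ℂ) 1 := fun z hz => hz.1
    refine (measure_mono hsub).trans ?_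
    rw [Complex.volume_ball, ENNReal.ofReal_one, one_pow, one_mul]
    have e : ((NNReal.pi : NNReal) : ℝ≥0∞) = ENNReal.ofReal π := by
      rw [ENNReal.ofReal, Real.toNNReal_of_nonneg hpi.le]
      rfl
    rw [e]
    apply ENNReal.ofReal_le_ofReal
    have h1 : (256 : ℝ) ^ (-(2 / 3) : ℝ) ≤ l ^ (-(2 / 3) : ℝ) :=
      Real.rpow_le_rpow_of_nonpos hl h (by norm_num)
    have h2 : (1 : ℝ) / 64 ≤ (256 : ℝ) ^ (-(2 / 3) : ℝ) := by
      have : (512 : ℝ) ^ (-(2 / 3) : ℝ) ≤ (256 : ℝ) ^ (-(2 / 3) : ℝ) :=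
        Real.rpow_le_rpow_of_nonpos (by norm_num) (by norm_num) (by norm_num)
      refine le_trans (le_of_eq ?_) this
      rw [show (512 : ℝ) = (8 : ℝ) ^ (3 : ℝ) by norm_num, ← Real.rpow_mul (by norm_num)]
      norm_num
    have h3 : 0 ≤ 5 * C1 * q * l ^ (-(2 / 3) : ℝ) := by positivity
    nlinarith
  · set δ : ℝ := (32 / l) ^ (1 / 3 : ℝ) with hδ
    have hδ0 : 0 < δ := by positivity
    have hδ3 : δ ^ 3 = 32 / l := by
      rw [hδ, ← Real.rpow_mul_natCast (by positivity)]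
      norm_num
    have hδ2 : δ < 1 / 2 := by
      have h1 : δ ^ 3 < (1 / 2) ^ 3 := by
        rw [hδ3, div_lt_iff₀ hl]
        linarith
      exact lt_of_pow_lt_pow_left₀ 3 (by norm_num) h1
    have hsub : {z | z ∈ ball (0 : ℂ) 1 ∧ l < ‖deriv f z‖} ⊆
        ({z | l < ‖deriv f z‖} ∩ ({z | 1 - δ < ‖z‖} ∩ ball (0 : ℂ) 1)) := by
      rintro z ⟨hz, hd⟩
      refine ⟨hd, ?_, hz⟩
      have h1 := deriv_le hfS hz
      have hz1 : 0 < 1 - ‖z‖ := by
        rw [mem_ball_zero_iff] at hz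
        linarith
      have h2 : (1 - ‖z‖) ^ 3 < δ ^ 3 := by
        rw [hδ3, lt_div_iff₀ hl]
        have h3 := lt_of_lt_of_le hd h1
        rw [lt_div_iff₀ (by positivity)] at h3
        linarith
      have h3 := lt_of_pow_lt_pow_left₀ 3 hδ0.le h2
      change 1 - δ < ‖z‖
      linarith
    have hmS : MeasurableSet ({z | l < ‖deriv f z‖} ∩ ({z | 1 - δ < ‖z‖} ∩ ball (0 : ℂ) 1)) :=
      (measurableSet_lt measurable_const (measurable_deriv f).norm).inter
        ((measurableSet_lt measurable_const measurable_norm).inter measurableSet_ball)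
    have hlt : 0 < l ^ (3 / 5 : ℝ) := Real.rpow_pos_of_pos hl _
    have h1 : ENNReal.ofReal (l ^ (3 / 5 : ℝ)) *
        volume ({z | l < ‖deriv f z‖} ∩ ({z | 1 - δ < ‖z‖} ∩ ball (0 : ℂ) 1)) ≤
        ENNReal.ofReal (C1 * (5 * δ ^ (1 / 5 : ℝ))) := by
      calc ENNReal.ofReal (l ^ (3 / 5 : ℝ)) *
          volume ({z | l < ‖deriv f z‖} ∩ ({z | 1 - δ < ‖z‖} ∩ ball (0 : ℂ) 1))
          = ∫⁻ _ in {z | l < ‖deriv f z‖} ∩ ({z | 1 - δ < ‖z‖} ∩ ball (0 : ℂ) 1),
            ENNReal.ofReal (l ^ (3 / 5 : ℝ)) := by rw [setLIntegral_const]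
        _ ≤ ∫⁻ z in {z | l < ‖deriv f z‖} ∩ ({z | 1 - δ < ‖z‖} ∩ ball (0 : ℂ) 1),
            ENNReal.ofReal (‖deriv f z‖ ^ (3 / 5 : ℝ)) := by
            apply setLIntegral_mono' hmS
            intro z hz
            apply ENNReal.ofReal_le_ofReal
            have : l < ‖deriv f z‖ := hz.1
            exact Real.rpow_le_rpow hl.le this.le (by norm_num)
        _ ≤ ∫⁻ z in {z | 1 - δ < ‖z‖} ∩ ball (0 : ℂ) 1,
            ENNReal.ofReal (‖deriv f z‖ ^ (3 / 5 : ℝ)) := lintegral_mono_set inter_subset_right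
        _ = ∫⁻ r in Ioo (1 - δ) 1, ENNReal.ofReal (r * MM f (3 / 5) r) :=
            annulus_polar hf _ (by linarith)
        _ ≤ ∫⁻ r in Ioo (1 - δ) 1, ENNReal.ofReal C1 * ENNReal.ofReal ((1 - r) ^ (-(4 / 5) : ℝ)) := by
            apply setLIntegral_mono' measurableSet_Ioo
            intro r hr
            rw [← ENNReal.ofReal_mul hC11.le]
            apply ENNReal.ofReal_le_ofReal
            have hr2 : 1 / 2 ≤ r := by linarith [hr.1]
            have hr1 : 0 < 1 - r := by linarith [hr.2]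
            have h2 := hC0 f hfS r ⟨hr2, hr.2⟩
            have hM := MM_pos hf (3 / 5) (by linarith : (0 : ℝ) ≤ r) hr.2
            have h3 : (1 - r) ^ (3 * (3 / 5) - 1 : ℝ) = ((1 - r) ^ (-(4 / 5) : ℝ))⁻¹ := by
              rw [← Real.rpow_neg hr1.le]
              norm_num
            rw [h3] at h2
            have h4 : 0 < (1 - r) ^ (-(4 / 5) : ℝ) := Real.rpow_pos_of_pos hr1 _
            have h5 : MM f (3 / 5) r ≤ C1 * (1 - r) ^ (-(4 / 5) : ℝ) := by
              have h6 : ((1 - r) ^ (-(4 / 5) : ℝ))⁻¹ * MM f (3 / 5) r ≤ C1 :=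
                h2.trans (le_max_left _ _)
              rwa [inv_mul_le_iff₀ h4, mul_comm] at h6
            refine le_trans ?_ h5
            nlinarith [hr.2]
        _ = ENNReal.ofReal C1 * ENNReal.ofReal (δ ^ (-(4 / 5) + 1 : ℝ) / (-(4 / 5) + 1)) := by
            rw [lintegral_const_mul' _ _ ENNReal.ofReal_ne_top,
              lintegral_one_sub_rpow hδ0 (by norm_num)]
        _ = ENNReal.ofReal (C1 * (5 * δ ^ (1 / 5 : ℝ))) := by
            rw [← ENNReal.ofReal_mul hC11.le]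
            congr 2
            rw [show (-(4 / 5) + 1 : ℝ) = 1 / 5 by norm_num]
            ring
    have h2 : volume ({z | l < ‖deriv f z‖} ∩ ({z | 1 - δ < ‖z‖} ∩ ball (0 : ℂ) 1)) ≤
        ENNReal.ofReal (C1 * (5 * δ ^ (1 / 5 : ℝ))) / ENNReal.ofReal (l ^ (3 / 5 : ℝ)) := by
      rw [ENNReal.le_div_iff_mul_le (Or.inl (by simpa using hlt)) (Or.inl ENNReal.ofReal_ne_top),
        mul_comm]
      exact h1
    refine (measure_mono hsub).trans (h2.trans ?_)
    rw [← ENNReal.ofReal_div_of_pos hlt]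
    apply ENNReal.ofReal_le_ofReal
    have e1 : δ ^ (1 / 5 : ℝ) = q * l ^ (-(1 / 15) : ℝ) := by
      rw [hδ, ← Real.rpow_mul (by positivity), hq, Real.div_rpow (by norm_num) hl.le,
        Real.rpow_neg hl.le, ← div_eq_mul_inv]
      norm_num
    have e2 : l ^ (-(2 / 3) : ℝ) = l ^ (-(1 / 15) : ℝ) / l ^ (3 / 5 : ℝ) := by
      rw [← Real.rpow_sub hl]
      norm_num
    rw [e1, e2]
    have h3 : 0 ≤ l ^ (-(1 / 15) : ℝ) / l ^ (3 / 5 : ℝ) := by positivity
    have e3 : C1 * (5 * (q * l ^ (-(1 / 15) : ℝ))) / l ^ (3 / 5 : ℝ) =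
        5 * C1 * q * (l ^ (-(1 / 15) : ℝ) / l ^ (3 / 5 : ℝ)) := by ring
    rw [e3]
    nlinarith [mul_nonneg hpi.le h3]

end

end Vale.Agent.P142.H838
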