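import Vale.Agent.P142.H838.WeakS
import Vale.Agent.P142.H838.Annulus

/-!
P142, endpoint form of Brennan's conjecture: transfer of the weak type estimates to conformal maps
onto the disc.
-/

open Complex MeasureTheory Metric Set Filter Topology
open scoped Real ComplexConjugate ENNReal

namespace Vale.Agent.P142.H838

noncomputable section

variable {f : ℂ → ℂ} {t r r₀ : ℝ}

/-- Change of variables for functions of `|φ'|`. -/
theorem exists_inverse' {W : Set ℂ} (hW : IsOpen W) {φ : ℂ → ℂ} (hφ : DifferentiableOn ℂ φ W)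
    (hbij : BijOn φ W (ball 0 1)) {w₀ : ℂ} (hw₀ : w₀ ∈ W) (hφ₀ : φ w₀ = 0) :
    ∃ F ∈ ClassS, ∀ H : ℝ → ℝ≥0∞,
    ∫⁻ w in W, H ‖deriv φ w‖ = ENNReal.ofReal ((‖deriv φ w₀‖ ^ 2)⁻¹) *
      ∫⁻ z in ball (0 : ℂ) 1, ENNReal.ofReal (‖deriv F z‖ ^ 2) *
        H (‖deriv φ w₀‖ * ‖deriv F z‖⁻¹) := by
  set f : ℂ → ℂ := Function.invFunOn φ W with hf
  have h00 : (0 : ℂ) ∈ ball (0 : ℂ) 1 := mem_ball_self one_pos
  have hinv : InvOn f φ W (ball 0 1) := hbij.invOn_invFunOn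
  have hbij' : BijOn f (ball 0 1) W := (bijOn_comm hinv).mpr hbij
  have hf0 : f 0 = w₀ := by
    have := hinv.1 hw₀
    rwa [hφ₀] at this
  have hder : ∀ z ∈ ball (0 : ℂ) 1, HasDerivAt f (deriv φ (f z))⁻¹ z := by
    intro z hz
    have ha : f z ∈ W := hbij'.mapsTo hz
    have hd : HasStrictDerivAt φ (deriv φ (f z)) (f z) :=
      (hφ.analyticAt (hW.mem_nhds ha)).hasStrictDerivAt
    have hne : deriv φ (f z) ≠ 0 := injOn_deriv_ne_zero hW hφ hbij.injOn ha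
    have hev : ∀ᶠ x in 𝓝 (f z), f (φ x) = x := by
      filter_upwards [hW.mem_nhds ha] with x hx
      exact hinv.1 hx
    have h1 := hd.to_local_left_inverse hne hev
    rw [hinv.2 hz] at h1
    exact h1.hasDerivAt
  have hfU : Univ f := ⟨fun z hz => (hder z hz).differentiableAt.differentiableWithinAt,
    hbij'.injOn⟩
  have hne0 : deriv φ w₀ ≠ 0 := injOn_deriv_ne_zero hW hφ hbij.injOn hw₀
  have hm0 : 0 < ‖deriv φ w₀‖ := norm_pos_iff.mpr hne0
  set F : ℂ → ℂ := fun z => deriv φ w₀ * (f z - w₀) with hF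
  have hFd : ∀ z ∈ ball (0 : ℂ) 1, deriv F z = deriv φ w₀ * deriv f z := by
    intro z hz
    have h1 : HasDerivAt f (deriv f z) z :=
      (hfU.1.differentiableAt (isOpen_ball.mem_nhds hz)).hasDerivAt
    exact ((h1.sub_const w₀).const_mul (deriv φ w₀)).deriv
  have hFS : F ∈ ClassS := by
    refine ⟨(hfU.1.sub_const w₀).const_mul _, ?_, ?_, ?_⟩
    · intro a ha b hb hab
      apply hfU.2 ha hb
      have := mul_left_cancel₀ hne0 hab
      linear_combination this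
    · simp only [hF, hf0, sub_self, mul_zero]
    · rw [hFd 0 h00, (hder 0 h00).deriv, hf0, mul_inv_cancel₀ hne0]
  refine ⟨F, hFS, fun H => ?_⟩
  have h1 := lintegral_image_eq_lintegral_abs_det_fderiv_mul volume (s := ball (0 : ℂ) 1)
    (f := f) (f' := fun z => (ContinuousLinearMap.toSpanSingleton ℂ (deriv f z)).restrictScalars ℝ)
    measurableSet_ball (fun z hz =>
      (((hfU.1.differentiableAt (isOpen_ball.mem_nhds hz)).hasDerivAt.hasFDerivAt).restrictScalars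
        ℝ).hasFDerivWithinAt) hfU.2 (fun w => H ‖deriv φ w‖)
  rw [hbij'.image_eq] at h1
  rw [h1, ← lintegral_const_mul' _ _ ENNReal.ofReal_ne_top]
  apply setLIntegral_congr_fun measurableSet_ball
  intro z hz
  simp only [abs_det_holo]
  have hne : deriv f z ≠ 0 := univ_deriv_ne_zero hfU hz
  have hpos : 0 < ‖deriv f z‖ := norm_pos_iff.mpr hne
  have e : deriv φ (f z) = (deriv f z)⁻¹ := by
    rw [(hder z hz).deriv, inv_inv]
  rw [e, norm_inv, hFd z hz, norm_mul, ← mul_assoc, ← ENNReal.ofReal_mul (by positivity)]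
  congr 2
  · field_simp
  · field_simp

/-- Second moment of `|F'|` below a level, from the weak type estimate at the upper end. -/
lemma second_moment {C : ℝ} (hC : 0 < C) {F : ℂ → ℂ}
    (hw : ∀ l : ℝ, 0 < l → volume {z | z ∈ ball (0 : ℂ) 1 ∧ l < ‖deriv F z‖} ≤
      ENNReal.ofReal (C * l ^ (-(2 / 3) : ℝ))) {c : ℝ} (hc : 0 < c) :
    ∫⁻ z in {z | ‖deriv F z‖ < c} ∩ ball (0 : ℂ) 1, ENNReal.ofReal (‖deriv F z‖ ^ 2) ≤
      ENNReal.ofReal (3 / 2 * C * c ^ (4 / 3 : ℝ)) := by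
  have hm : Measurable fun z => ‖deriv F z‖ := (measurable_deriv F).norm
  have hS : MeasurableSet ({z | ‖deriv F z‖ < c} ∩ ball (0 : ℂ) 1) :=
    (measurableSet_lt hm measurable_const).inter measurableSet_ball
  have h1 := lintegral_rpow_eq_lintegral_meas_lt_mul
    (μ := volume.restrict ({z | ‖deriv F z‖ < c} ∩ ball (0 : ℂ) 1)) (f := fun z => ‖deriv F z‖)
    (Eventually.of_forall fun z => norm_nonneg _) hm.aemeasurable (p := 2) two_pos
  have e1 : ∀ z : ℂ, ‖deriv F z‖ ^ (2 : ℝ) = ‖deriv F z‖ ^ 2 := fun z => Real.rpow_two _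
  simp only [e1] at h1
  rw [h1]
  have h2 : ∫⁻ s in Ioi (0 : ℝ), volume.restrict ({z | ‖deriv F z‖ < c} ∩ ball (0 : ℂ) 1)
      {z | s < ‖deriv F z‖} * ENNReal.ofReal (s ^ ((2 : ℝ) - 1)) ≤
      ∫⁻ s in Ioo 0 c, ENNReal.ofReal C * ENNReal.ofReal (s ^ (1 / 3 : ℝ)) := by
    have e2 : ∫⁻ s in Ioo 0 c, ENNReal.ofReal C * ENNReal.ofReal (s ^ (1 / 3 : ℝ)) =
        ∫⁻ s in Ioi (0 : ℝ), (Iio c).indicator
          (fun s => ENNReal.ofReal C * ENNReal.ofReal (s ^ (1 / 3 : ℝ))) s := by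
      rw [lintegral_indicator measurableSet_Iio, Measure.restrict_restrict measurableSet_Iio,
        Iio_inter_Ioi]
    rw [e2]
    apply setLIntegral_mono' measurableSet_Ioi
    intro s hs
    have hs0 : (0 : ℝ) < s := hs
    have hmA : MeasurableSet {z : ℂ | s < ‖deriv F z‖} := measurableSet_lt measurable_const hm
    rw [Measure.restrict_apply hmA]
    by_cases h : s < c
    · rw [indicator_of_mem (show s ∈ Iio c from h)]
      have h3 : volume ({z | s < ‖deriv F z‖} ∩ ({z | ‖deriv F z‖ < c} ∩ ball (0 : ℂ) 1)) ≤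
          ENNReal.ofReal (C * s ^ (-(2 / 3) : ℝ)) := by
        refine le_trans (measure_mono ?_) (hw s hs0)
        rintro z ⟨a, _, b⟩
        exact ⟨b, a⟩
      refine (mul_le_mul_left h3 _).trans (le_of_eq ?_)
      have : 0 ≤ s ^ (-(2 / 3) : ℝ) := Real.rpow_nonneg hs0.le _
      rw [← ENNReal.ofReal_mul (by positivity), ← ENNReal.ofReal_mul hC.le]
      congr 1
      rw [mul_assoc, ← Real.rpow_add hs0]
      norm_num
    · have h3 : ({z | s < ‖deriv F z‖} ∩ ({z | ‖deriv F z‖ < c} ∩ ball (0 : ℂ) 1)) = ∅ := by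
        ext z
        simp only [mem_inter_iff, mem_ofPred_eq, mem_empty_iff_false, iff_false]
        rintro ⟨a, b, _⟩
        linarith
      rw [h3, measure_empty, zero_mul]
      exact bot_le
  refine (mul_le_mul_right h2 _).trans (le_of_eq ?_)
  have h3 : IntervalIntegrable (fun x : ℝ => x ^ (1 / 3 : ℝ)) volume 0 c :=
    intervalIntegral.intervalIntegrable_rpow' (by norm_num)
  have h4 : ∫⁻ s in Ioo 0 c, ENNReal.ofReal (s ^ (1 / 3 : ℝ)) =
      ENNReal.ofReal (3 / 4 * c ^ (4 / 3 : ℝ)) := by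
    rw [← ofReal_integral_eq_lintegral_ofReal (h3.1.mono_set Ioo_subset_Ioc_self)
      ((ae_restrict_iff' measurableSet_Ioo).mpr
      (Eventually.of_forall fun r hr => Real.rpow_nonneg hr.1.le _))]
    congr 1
    rw [← integral_Ioc_eq_integral_Ioo, ← intervalIntegral.integral_of_le hc.le,
      integral_rpow (Or.inl (by norm_num)), Real.zero_rpow (by norm_num), sub_zero]
    norm_num
    ring
  rw [lintegral_const_mul' _ _ ENNReal.ofReal_ne_top, h4]
  have h5 : 0 ≤ c ^ (4 / 3 : ℝ) := Real.rpow_nonneg hc.le _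
  rw [← ENNReal.ofReal_mul hC.le, ← ENNReal.ofReal_mul two_pos.le]
  congr 1
  ring

/-- **Weak type estimates for conformal maps onto the disc**, with an absolute constant. -/
theorem weak_conf : ∃ C : ℝ, 0 < C ∧
    ∀ (W : Set ℂ) (φ : ℂ → ℂ), IsOpen W → DifferentiableOn ℂ φ W → BijOn φ W (ball 0 1) →
    ∀ w₀ ∈ W, φ w₀ = 0 → ∀ l : ℝ, 0 < l →
    volume {w | w ∈ W ∧ l * ‖deriv φ w₀‖ < ‖deriv φ w‖} ≤
      ENNReal.ofReal (C / ‖deriv φ w₀‖ ^ 2 * min (l ^ (-4 : ℝ)) (l ^ (-(4 / 3) : ℝ))) := by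
  obtain ⟨C1, hC1, h1⟩ := weak_low
  obtain ⟨C2, hC2, h2⟩ := weak_high
  refine ⟨C1 + 3 / 2 * C2, by positivity, fun W φ hW hφ hbij w₀ hw₀ hφ₀ l hl => ?_⟩
  obtain ⟨F, hFS, hF⟩ := exists_inverse' hW hφ hbij hw₀ hφ₀
  have hFU := univ_of_classS hFS
  have hne0 : deriv φ w₀ ≠ 0 := injOn_deriv_ne_zero hW hφ hbij.injOn hw₀
  set m : ℝ := ‖deriv φ w₀‖ with hm
  have hm0 : 0 < m := norm_pos_iff.mpr hne0
  have hmS : MeasurableSet {w : ℂ | l * m < ‖deriv φ w‖} :=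
    measurableSet_lt measurable_const (measurable_deriv φ).norm
  have e1 : volume {w | w ∈ W ∧ l * m < ‖deriv φ w‖} =
      ∫⁻ w in W, (Ioi (l * m)).indicator (fun _ => (1 : ℝ≥0∞)) ‖deriv φ w‖ := by
    have : (fun w => (Ioi (l * m)).indicator (fun _ => (1 : ℝ≥0∞)) ‖deriv φ w‖) =
        ({w : ℂ | l * m < ‖deriv φ w‖}).indicator (fun _ => (1 : ℝ≥0∞)) := by
      funext w
      simp only [indicator, mem_Ioi, mem_ofPred_eq]
    rw [this, lintegral_indicator hmS, setLIntegral_one, Measure.restrict_apply hmS]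
    congr 1
    ext w
    simp only [mem_ofPred_eq, mem_inter_iff]
    tauto
  have hmF : MeasurableSet {z : ℂ | ‖deriv F z‖ < l⁻¹} :=
    measurableSet_lt (measurable_deriv F).norm measurable_const
  have e2 : ∫⁻ z in ball (0 : ℂ) 1, ENNReal.ofReal (‖deriv F z‖ ^ 2) *
      (Ioi (l * m)).indicator (fun _ => (1 : ℝ≥0∞)) (m * ‖deriv F z‖⁻¹) =
      ∫⁻ z in {z | ‖deriv F z‖ < l⁻¹} ∩ ball (0 : ℂ) 1, ENNReal.ofReal (‖deriv F z‖ ^ 2) := by
    have e3 : ∫⁻ z in {z | ‖deriv F z‖ < l⁻¹} ∩ ball (0 : ℂ) 1, ENNReal.ofReal (‖deriv F z‖ ^ 2) =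
        ∫⁻ z in ball (0 : ℂ) 1, ({z : ℂ | ‖deriv F z‖ < l⁻¹}).indicator
          (fun z => ENNReal.ofReal (‖deriv F z‖ ^ 2)) z := by
      rw [lintegral_indicator hmF, Measure.restrict_restrict hmF]
    rw [e3]
    apply setLIntegral_congr_fun measurableSet_ball
    intro z hz
    have hd : 0 < ‖deriv F z‖ := norm_pos_iff.mpr (univ_deriv_ne_zero hFU hz)
    have hiff : l * m < m * ‖deriv F z‖⁻¹ ↔ ‖deriv F z‖ < l⁻¹ := by
      rw [mul_comm l m, mul_lt_mul_iff_right₀ hm0, lt_inv_comm₀ hl hd]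
    simp only [indicator, mem_Ioi, mem_ofPred_eq, hiff]
    split_ifs <;> simp
  rw [e1, hF, e2]
  have hl4 : 0 < l ^ (-4 : ℝ) := Real.rpow_pos_of_pos hl _
  have hl43 : 0 < l ^ (-(4 / 3) : ℝ) := Real.rpow_pos_of_pos hl _
  have hi : 0 < (m ^ 2)⁻¹ := by positivity
  -- first bound
  have b1 : ∫⁻ z in {z | ‖deriv F z‖ < l⁻¹} ∩ ball (0 : ℂ) 1, ENNReal.ofReal (‖deriv F z‖ ^ 2) ≤
      ENNReal.ofReal (C1 * l ^ (-4 : ℝ)) := by
    calc ∫⁻ z in {z | ‖deriv F z‖ < l⁻¹} ∩ ball (0 : ℂ) 1, ENNReal.ofReal (‖deriv F z‖ ^ 2)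
        ≤ ∫⁻ _ in {z | ‖deriv F z‖ < l⁻¹} ∩ ball (0 : ℂ) 1, ENNReal.ofReal (l⁻¹ ^ 2) := by
          apply setLIntegral_mono' (hmF.inter measurableSet_ball)
          intro z hz
          apply ENNReal.ofReal_le_ofReal
          exact pow_le_pow_left₀ (norm_nonneg _) (le_of_lt hz.1) 2
      _ = ENNReal.ofReal (l⁻¹ ^ 2) * volume ({z | ‖deriv F z‖ < l⁻¹} ∩ ball (0 : ℂ) 1) := by
          rw [setLIntegral_const]
      _ ≤ ENNReal.ofReal (l⁻¹ ^ 2) * ENNReal.ofReal (C1 * l⁻¹ ^ 2) := by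
          refine mul_le_mul_right (le_trans (measure_mono ?_) (h1 F hFS l⁻¹ (inv_pos.mpr hl))) _
          rintro z ⟨a, b⟩
          exact ⟨b, a⟩
      _ = ENNReal.ofReal (C1 * l ^ (-4 : ℝ)) := by
          rw [← ENNReal.ofReal_mul (by positivity)]
          congr 1
          rw [Real.rpow_neg hl.le]
          norm_cast
          field_simp
  have b2 := second_moment hC2 (h2 F hFS) (inv_pos.mpr hl)
  have e4 : (l⁻¹) ^ (4 / 3 : ℝ) = l ^ (-(4 / 3) : ℝ) := by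
    rw [Real.inv_rpow hl.le, Real.rpow_neg hl.le]
  rw [e4] at b2
  have b3 : ∫⁻ z in {z | ‖deriv F z‖ < l⁻¹} ∩ ball (0 : ℂ) 1, ENNReal.ofReal (‖deriv F z‖ ^ 2) ≤
      ENNReal.ofReal ((C1 + 3 / 2 * C2) * min (l ^ (-4 : ℝ)) (l ^ (-(4 / 3) : ℝ))) := by
    rcases min_choice (l ^ (-4 : ℝ)) (l ^ (-(4 / 3) : ℝ)) with h | h
    · rw [h]
      refine b1.trans (ENNReal.ofReal_le_ofReal ?_)
      nlinarith
    · rw [h]
      refine b2.trans (ENNReal.ofReal_le_ofReal ?_)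
      nlinarith
  refine (mul_le_mul_right b3 _).trans (le_of_eq ?_)
  rw [← ENNReal.ofReal_mul hi.le]
  congr 1
  ring

end

end Vale.Agent.P142.H838
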