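import Vale.Agent.P142.Bdl.B1

/-!
P142, endpoint form of Brennan's conjecture: Green's identity for `log (1 + a |h|²)` with the
weight `τ²`, `τ = (1 - |z|²) / 2`, in polar coordinates.
-/

open Complex MeasureTheory Metric Set Filter Topology
open scoped Real ComplexConjugate ENNReal

namespace Vale.Agent.P142.H838

open Vale.Agent.P142.Brn

noncomputable section

variable {h : ℂ → ℂ} {a : ℝ} {z : ℂ}

/-- `1 + a |h|²`, complex valued. -/
def WW (a : ℝ) (h : ℂ → ℂ) (z : ℂ) : ℂ := 1 + (a : ℂ) * (h z * conj (h z))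

lemma WW_eq (a : ℝ) (h : ℂ → ℂ) (z : ℂ) : WW a h z = ((1 + a * ‖h z‖ ^ 2 : ℝ) : ℂ) := by
  unfold WW
  rw [Complex.mul_conj']
  push_cast
  ring

lemma WR_pos (ha : 0 < a) (h : ℂ → ℂ) (z : ℂ) : 0 < 1 + a * ‖h z‖ ^ 2 := by positivity

lemma WW_ne (ha : 0 < a) (h : ℂ → ℂ) (z : ℂ) : WW a h z ≠ 0 := by
  rw [WW_eq]
  exact_mod_cast (WR_pos ha h z).ne'

/-- left integrand -/
def KK (a : ℝ) (h : ℂ → ℂ) (z : ℂ) : ℝ :=
  (tau z ^ 2 * ‖deriv h z‖ ^ 2 - tau z * (z * deriv h z * conj (h z)).re / ‖z‖ ^ 2) /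
    (1 + a * ‖h z‖ ^ 2) ^ 2

/-- right integrand -/
def LL (a : ℝ) (h : ℂ → ℂ) (z : ℂ) : ℝ :=
  (4 * ‖z‖ ^ 2 - 2) / (4 * a) * Real.log (1 + a * ‖h z‖ ^ 2) -
    ‖h z‖ ^ 2 / (2 * (1 + a * ‖h z‖ ^ 2))

/-- `log (1 + a |h|²)` -/
def UU (a : ℝ) (h : ℂ → ℂ) (z : ℂ) : ℂ := Complex.log (WW a h z)

lemma UU_eq (ha : 0 < a) (h : ℂ → ℂ) (z : ℂ) :
    UU a h z = ((Real.log (1 + a * ‖h z‖ ^ 2) : ℝ) : ℂ) := by
  unfold UU
  rw [WW_eq, Complex.ofReal_log (WR_pos ha h z).le]

/-- `a h conj (z h') / (1 + a |h|²)` -/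
def HH (a : ℝ) (h : ℂ → ℂ) (z : ℂ) : ℂ :=
  (a : ℂ) * h z * conj (z * deriv h z) * (WW a h z)⁻¹

/-- `|h|² / (1 + a |h|²)` -/
def BB (a : ℝ) (h : ℂ → ℂ) (z : ℂ) : ℂ := h z * conj (h z) * (WW a h z)⁻¹

lemma hasW_h (hh : DifferentiableOn ℂ h (ball 0 1)) (hz : z ∈ ball (0 : ℂ) 1) :
    HasW h (deriv h z) 0 z :=
  HasW.of_hasDerivAt (hh.differentiableAt (isOpen_ball.mem_nhds hz)).hasDerivAt

lemma hasW_WW (hh : DifferentiableOn ℂ h (ball 0 1)) (hz : z ∈ ball (0 : ℂ) 1) :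
    HasW (WW a h) ((a : ℂ) * (deriv h z * conj (h z))) ((a : ℂ) * (h z * conj (deriv h z))) z := by
  have h1 := hasW_h hh hz
  have h2 := (HasW.const 1 z).add ((HasW.const (a : ℂ) z).mul (h1.mul h1.conj))
  refine h2.congr_coeff ?_ ?_ <;> simp

lemma hasW_UU (ha : 0 < a) (hh : DifferentiableOn ℂ h (ball 0 1)) (hz : z ∈ ball (0 : ℂ) 1) :
    HasW (UU a h) ((a : ℂ) * (deriv h z * conj (h z)) * (WW a h z)⁻¹)
      ((a : ℂ) * (h z * conj (deriv h z)) * (WW a h z)⁻¹) z := by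
  have hs : WW a h z ∈ slitPlane := by
    rw [WW_eq]
    exact ofReal_mem_slitPlane.mpr (WR_pos ha h z)
  have h1 := HasW.comp (Complex.hasDerivAt_log hs) (hasW_WW (a := a) hh hz)
  refine h1.congr_coeff ?_ ?_ <;> ring

lemma hasW_BB (ha : 0 < a) (hh : DifferentiableOn ℂ h (ball 0 1)) (hz : z ∈ ball (0 : ℂ) 1) :
    HasW (BB a h) (deriv h z * conj (h z) * ((WW a h z)⁻¹) ^ 2)
      (h z * conj (deriv h z) * ((WW a h z)⁻¹) ^ 2) z := by
  have h1 := hasW_h hh hz
  have hne := WW_ne ha h z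
  have h2 := (h1.mul h1.conj).mul ((hasW_WW (a := a) hh hz).inv hne)
  have e : (a : ℂ) * (h z * conj (h z)) = WW a h z - 1 := by unfold WW; ring
  refine h2.congr_coeff ?_ ?_
  · simp only [map_zero, mul_zero, add_zero]
    field_simp
    linear_combination -(deriv h z * conj (h z)) * e
  · simp only [zero_mul, zero_add]
    field_simp
    linear_combination -(h z * conj (deriv h z)) * e

lemma hasW_HH (ha : 0 < a) (hh : DifferentiableOn ℂ h (ball 0 1)) (hz : z ∈ ball (0 : ℂ) 1) :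
    HasW (HH a h) ((a : ℂ) * deriv h z * conj (z * deriv h z) * ((WW a h z)⁻¹) ^ 2)
      ((a : ℂ) * h z * conj (deriv h z + z * deriv (deriv h) z) * (WW a h z)⁻¹ -
        (a : ℂ) * h z * conj (z * deriv h z) * ((a : ℂ) * (h z * conj (deriv h z))) *
          ((WW a h z)⁻¹) ^ 2) z := by
  have h1 := hasW_h hh hz
  have hne := WW_ne ha h z
  have hd := hasW_h (hh.deriv isOpen_ball) hz
  have hid : HasW (fun z : ℂ => z) 1 0 z := HasW.of_hasDerivAt (hasDerivAt_id z)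
  have h2 := (((HasW.const (a : ℂ) z).mul h1).mul ((hid.mul hd).conj)).mul
    ((hasW_WW (a := a) hh hz).inv hne)
  have e : (a : ℂ) * (h z * conj (h z)) = WW a h z - 1 := by unfold WW; ring
  refine h2.congr_coeff ?_ ?_
  · simp only [map_zero, mul_zero, add_zero, zero_mul, zero_add, map_mul]
    field_simp
    linear_combination -((a : ℂ) * deriv h z * conj z * conj (deriv h z)) * e
  · simp only [mul_zero, add_zero, zero_mul, zero_add, map_add, map_mul, one_mul]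
    field_simp
    ring

lemma continuousOn_WWinv (ha : 0 < a) (hh : DifferentiableOn ℂ h (ball 0 1)) :
    ContinuousOn (fun z => (WW a h z)⁻¹) (ball 0 1) := by
  have h1 : ContinuousOn h (ball (0 : ℂ) 1) := hh.continuousOn
  have h2 : ContinuousOn (fun z => conj (h z)) (ball (0 : ℂ) 1) :=
    Complex.continuous_conj.comp_continuousOn h1
  apply ContinuousOn.inv₀ _ (fun z _ => WW_ne ha h z)
  unfold WW
  exact continuousOn_const.add (continuousOn_const.mul (h1.mul h2))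

/-- radial derivative of the circle integral of `log (1 + a |h|²)` -/
lemma deriv_CU (ha : 0 < a) (hh : DifferentiableOn ℂ h (ball 0 1)) {r : ℝ} (hr0 : 0 < r)
    (hr1 : r < 1) : HasDerivAt (fun s : ℝ => ∫ θ in (-π)..π, UU a h (circleMap 0 s θ))
      ((2 / r) * ∫ θ in (-π)..π, HH a h (circleMap 0 r θ)) r := by
  have h1 : ContinuousOn h (ball (0 : ℂ) 1) := hh.continuousOn
  have h2 : ContinuousOn (fun z => conj (h z)) (ball (0 : ℂ) 1) :=
    Complex.continuous_conj.comp_continuousOn h1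
  have h3 : ContinuousOn (deriv h) (ball (0 : ℂ) 1) := (hh.deriv isOpen_ball).continuousOn
  have h4 : ContinuousOn (fun z => conj (deriv h z)) (ball (0 : ℂ) 1) :=
    Complex.continuous_conj.comp_continuousOn h3
  have h5 := continuousOn_WWinv ha hh
  have := (circle_integral_wirt (fun z hz => hasW_UU ha hh hz)
    ((continuousOn_const.mul (h3.mul h2)).mul h5)
    ((continuousOn_const.mul (h1.mul h4)).mul h5) hr0 hr1).1
  refine this.congr_deriv ?_
  congr 1
  refine intervalIntegral.integral_congr fun θ _ => ?_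
  simp only [HH, map_mul]
  ring

/-- radial derivative of the circle integral of `BB` -/
lemma deriv_CB (ha : 0 < a) (hh : DifferentiableOn ℂ h (ball 0 1)) {r : ℝ} (hr0 : 0 < r)
    (hr1 : r < 1) : HasDerivAt (fun s : ℝ => ∫ θ in (-π)..π, BB a h (circleMap 0 s θ))
      ((2 / r) * ∫ θ in (-π)..π, (deriv h (circleMap 0 r θ) * conj (h (circleMap 0 r θ)) *
        ((WW a h (circleMap 0 r θ))⁻¹) ^ 2) * circleMap 0 r θ) r := by
  have h1 : ContinuousOn h (ball (0 : ℂ) 1) := hh.continuousOn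
  have h2 : ContinuousOn (fun z => conj (h z)) (ball (0 : ℂ) 1) :=
    Complex.continuous_conj.comp_continuousOn h1
  have h3 : ContinuousOn (deriv h) (ball (0 : ℂ) 1) := (hh.deriv isOpen_ball).continuousOn
  have h4 : ContinuousOn (fun z => conj (deriv h z)) (ball (0 : ℂ) 1) :=
    Complex.continuous_conj.comp_continuousOn h3
  have h5 := continuousOn_WWinv ha hh
  have := circle_integral_wirt (fun z hz => hasW_BB ha hh hz)
    ((h3.mul h2).mul (h5.pow 2)) ((h1.mul h4).mul (h5.pow 2)) hr0 hr1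
  rw [this.2] at this
  exact this.1

/-- radial derivative of the circle integral of `HH` -/
lemma deriv_CH (ha : 0 < a) (hh : DifferentiableOn ℂ h (ball 0 1)) {r : ℝ} (hr0 : 0 < r)
    (hr1 : r < 1) : HasDerivAt (fun s : ℝ => ∫ θ in (-π)..π, HH a h (circleMap 0 s θ))
      ((2 / r) * ∫ θ in (-π)..π, ((a : ℂ) * deriv h (circleMap 0 r θ) *
        conj (circleMap 0 r θ * deriv h (circleMap 0 r θ)) *
          ((WW a h (circleMap 0 r θ))⁻¹) ^ 2) * circleMap 0 r θ) r := by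
  have h1 : ContinuousOn h (ball (0 : ℂ) 1) := hh.continuousOn
  have h3 : ContinuousOn (deriv h) (ball (0 : ℂ) 1) := (hh.deriv isOpen_ball).continuousOn
  have h3' : ContinuousOn (deriv (deriv h)) (ball (0 : ℂ) 1) :=
    ((hh.deriv isOpen_ball).deriv isOpen_ball).continuousOn
  have h4 : ContinuousOn (fun z => conj (deriv h z)) (ball (0 : ℂ) 1) :=
    Complex.continuous_conj.comp_continuousOn h3
  have h6 : ContinuousOn (fun z => conj (z * deriv h z)) (ball (0 : ℂ) 1) :=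
    Complex.continuous_conj.comp_continuousOn (continuousOn_id.mul h3)
  have h7 : ContinuousOn (fun z => conj (deriv h z + z * deriv (deriv h) z)) (ball (0 : ℂ) 1) :=
    Complex.continuous_conj.comp_continuousOn (h3.add (continuousOn_id.mul h3'))
  have h5 := continuousOn_WWinv ha hh
  have := circle_integral_wirt (fun z hz => hasW_HH ha hh hz)
    (((continuousOn_const.mul h3).mul h6).mul (h5.pow 2))
    ((((continuousOn_const.mul h1).mul h7).mul h5).sub
      ((((continuousOn_const.mul h1).mul h6).mul (continuousOn_const.mul (h1.mul h4))).mul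
        (h5.pow 2))) hr0 hr1
  rw [this.2] at this
  exact this.1

/-- the primitive -/
def psi (a : ℝ) (h : ℂ → ℂ) (r : ℝ) : ℂ :=
  (((1 - r ^ 2) / 2 : ℝ) : ℂ) ^ 2 / (2 * a) * (∫ θ in (-π)..π, HH a h (circleMap 0 r θ)) +
    (((1 - r ^ 2) / 2 : ℝ) : ℂ) * (r : ℂ) ^ 2 / (2 * a) *
      (∫ θ in (-π)..π, UU a h (circleMap 0 r θ)) -
    (((1 - r ^ 2) / 2 : ℝ) : ℂ) / 2 * (∫ θ in (-π)..π, BB a h (circleMap 0 r θ))

/-- the integrand of the derivative of the primitive -/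
def GG (a : ℝ) (h : ℂ → ℂ) (r : ℝ) (z : ℂ) : ℂ :=
  (((1 - r ^ 2) / 2 : ℝ) : ℂ) ^ 2 / (2 * a) * ((2 / r) * (((a : ℂ) * deriv h z *
        conj (z * deriv h z) * ((WW a h z)⁻¹) ^ 2) * z)) -
    (((1 - r ^ 2) / 2 : ℝ) : ℂ) / 2 * ((2 / r) * ((deriv h z * conj (h z) *
        ((WW a h z)⁻¹) ^ 2) * z)) +
    ((r : ℂ) * (1 - 2 * r ^ 2) / (2 * a)) * UU a h z + (r : ℂ) / 2 * BB a h z

lemma deriv_psi (ha : 0 < a) (hh : DifferentiableOn ℂ h (ball 0 1)) {r : ℝ} (hr0 : 0 < r)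
    (hr1 : r < 1) : HasDerivAt (psi a h) (∫ θ in (-π)..π, GG a h r (circleMap 0 r θ)) r := by
  have hU := deriv_CU ha hh hr0 hr1
  have hB := deriv_CB ha hh hr0 hr1
  have hH := deriv_CH ha hh hr0 hr1
  have ht : HasDerivAt (fun r : ℝ => (((1 - r ^ 2) / 2 : ℝ) : ℂ)) (-(r : ℂ)) r := by
    have h1 : HasDerivAt (fun r : ℝ => (1 - r ^ 2) / 2) (-r) r := by
      have := (((hasDerivAt_id r).pow 2).const_sub 1).div_const 2
      refine this.congr_deriv ?_
      simp
      ring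
    simpa using h1.ofReal_comp
  have hi : HasDerivAt (fun r : ℝ => (r : ℂ)) 1 r := by
    simpa using (hasDerivAt_id r).ofReal_comp
  have hd := ((((ht.pow 2).div_const (2 * (a : ℂ))).mul hH).add
    (((ht.mul (hi.pow 2)).div_const (2 * (a : ℂ))).mul hU)).sub ((ht.div_const 2).mul hB)
  have hmem := fun θ : ℝ => circleMap_mem_unit hr0.le hr1 θ
  have hz := continuous_circleMap (0 : ℂ) r
  have h1 : Continuous fun θ : ℝ => h (circleMap 0 r θ) := hh.continuousOn.comp_continuous hz hmem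
  have h3 : Continuous fun θ : ℝ => deriv h (circleMap 0 r θ) :=
    (hh.deriv isOpen_ball).continuousOn.comp_continuous hz hmem
  have h5 : Continuous fun θ : ℝ => (WW a h (circleMap 0 r θ))⁻¹ :=
    (continuousOn_WWinv ha hh).comp_continuous hz hmem
  have hUc : Continuous fun θ : ℝ => UU a h (circleMap 0 r θ) := by
    have e : (fun θ : ℝ => UU a h (circleMap 0 r θ)) = fun θ : ℝ =>
        ((Real.log (1 + a * ‖h (circleMap 0 r θ)‖ ^ 2) : ℝ) : ℂ) := by
      funext θ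
      exact UU_eq ha h _
    rw [e]
    refine Complex.continuous_ofReal.comp (Continuous.log ?_ fun θ => (WR_pos ha h _).ne')
    exact continuous_const.add (continuous_const.mul (h1.norm.pow 2))
  have hBc : Continuous fun θ : ℝ => BB a h (circleMap 0 r θ) :=
    (h1.mul (Complex.continuous_conj.comp h1)).mul h5
  have hDc : Continuous fun θ : ℝ => ((a : ℂ) * deriv h (circleMap 0 r θ) *
        conj (circleMap 0 r θ * deriv h (circleMap 0 r θ)) *
          ((WW a h (circleMap 0 r θ))⁻¹) ^ 2) * circleMap 0 r θ :=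
    (((continuous_const.mul h3).mul (Complex.continuous_conj.comp (hz.mul h3))).mul
      (h5.pow 2)).mul hz
  have hEc : Continuous fun θ : ℝ => (deriv h (circleMap 0 r θ) * conj (h (circleMap 0 r θ)) *
        ((WW a h (circleMap 0 r θ))⁻¹) ^ 2) * circleMap 0 r θ :=
    ((h3.mul (Complex.continuous_conj.comp h1)).mul (h5.pow 2)).mul hz
  have e1 : ∫ θ in (-π)..π, GG a h r (circleMap 0 r θ) =
      (((1 - r ^ 2) / 2 : ℝ) : ℂ) ^ 2 / (2 * a) * ((2 / r) * ∫ θ in (-π)..π,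
        ((a : ℂ) * deriv h (circleMap 0 r θ) *
        conj (circleMap 0 r θ * deriv h (circleMap 0 r θ)) *
          ((WW a h (circleMap 0 r θ))⁻¹) ^ 2) * circleMap 0 r θ) -
      (((1 - r ^ 2) / 2 : ℝ) : ℂ) / 2 * ((2 / r) * ∫ θ in (-π)..π,
        (deriv h (circleMap 0 r θ) * conj (h (circleMap 0 r θ)) *
        ((WW a h (circleMap 0 r θ))⁻¹) ^ 2) * circleMap 0 r θ) +
      ((r : ℂ) * (1 - 2 * r ^ 2) / (2 * a)) * (∫ θ in (-π)..π, UU a h (circleMap 0 r θ)) +
      (r : ℂ) / 2 * ∫ θ in (-π)..π, BB a h (circleMap 0 r θ) := by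
    simp only [GG, ← intervalIntegral.integral_const_mul]
    rw [intervalIntegral.integral_add, intervalIntegral.integral_add,
      intervalIntegral.integral_sub]
    · exact (continuous_const.mul (continuous_const.mul hDc)).intervalIntegrable _ _
    · exact (continuous_const.mul (continuous_const.mul hEc)).intervalIntegrable _ _
    · exact ((continuous_const.mul (continuous_const.mul hDc)).sub
        (continuous_const.mul (continuous_const.mul hEc))).intervalIntegrable _ _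
    · exact (continuous_const.mul hUc).intervalIntegrable _ _
    · exact (((continuous_const.mul (continuous_const.mul hDc)).sub
        (continuous_const.mul (continuous_const.mul hEc))).add
        (continuous_const.mul hUc)).intervalIntegrable _ _
    · exact (continuous_const.mul hBc).intervalIntegrable _ _
  rw [e1]
  refine hd.congr_deriv ?_
  have hr : (r : ℂ) ≠ 0 := by exact_mod_cast hr0.ne'
  have hac : (a : ℂ) ≠ 0 := by exact_mod_cast ha.ne'
  simp only [Pi.pow_apply, Pi.mul_apply, Nat.reduceSub, pow_one]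
  push_cast
  field_simp
  ring

lemma GG_re (ha : 0 < a) {r : ℝ} (hr0 : 0 < r) {z : ℂ} (hz : ‖z‖ = r) :
    (GG a h r z).re = r * KK a h z - r * LL a h z := by
  have hW := WR_pos ha h z
  have e1 : ((a : ℂ) * deriv h z * conj (z * deriv h z) * ((WW a h z)⁻¹) ^ 2) * z =
      ((a * (r ^ 2 * ‖deriv h z‖ ^ 2) * ((1 + a * ‖h z‖ ^ 2)⁻¹) ^ 2 : ℝ) : ℂ) := by
    have h1 := Complex.mul_conj' z
    have h2 := Complex.mul_conj' (deriv h z)
    rw [WW_eq, map_mul]
    rw [hz] at h1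
    push_cast
    linear_combination (a : ℂ) * (1 + (a : ℂ) * (‖h z‖ : ℂ) ^ 2)⁻¹ ^ 2 *
      ((deriv h z * conj (deriv h z)) * h1 + (r : ℂ) ^ 2 * h2)
  have e2 : (deriv h z * conj (h z) * ((WW a h z)⁻¹) ^ 2) * z =
      (((((1 + a * ‖h z‖ ^ 2)⁻¹) ^ 2 : ℝ)) : ℂ) * (z * deriv h z * conj (h z)) := by
    rw [WW_eq]
    push_cast
    ring
  have e3 : BB a h z = ((‖h z‖ ^ 2 * (1 + a * ‖h z‖ ^ 2)⁻¹ : ℝ) : ℂ) := by
    unfold BB
    rw [WW_eq, Complex.mul_conj']
    push_cast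
    ring
  have e4 : GG a h r z = (((((1 - r ^ 2) / 2) ^ 2 / (2 * a) * ((2 / r) *
      (a * (r ^ 2 * ‖deriv h z‖ ^ 2) * ((1 + a * ‖h z‖ ^ 2)⁻¹) ^ 2))) +
      (r * (1 - 2 * r ^ 2) / (2 * a)) * Real.log (1 + a * ‖h z‖ ^ 2) +
      r / 2 * (‖h z‖ ^ 2 * (1 + a * ‖h z‖ ^ 2)⁻¹) : ℝ) : ℂ) -
      (((1 - r ^ 2) / 2 / 2 * ((2 / r) * ((1 + a * ‖h z‖ ^ 2)⁻¹) ^ 2) : ℝ) : ℂ) *
        (z * deriv h z * conj (h z)) := by
    unfold GG
    rw [e1, e2, e3, UU_eq ha]
    push_cast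
    ring
  rw [e4, Complex.sub_re, Complex.ofReal_re, Complex.re_ofReal_mul]
  unfold KK LL tau
  rw [hz]
  field_simp
  ring

/-- bounds of the two integrands -/
lemma KK_bound (ha : 0 < a) {C : ℝ} (hC : 0 ≤ C) {z : ℂ} (hz : z ∈ ball (0 : ℂ) 1 \ {0})
    (hb : ‖h z‖ ≤ C * ‖z‖) (hb' : ‖deriv h z‖ ≤ C) : |KK a h z| ≤ 2 * C ^ 2 := by
  have hz1 : ‖z‖ < 1 := by simpa using hz.1
  have hz0 : 0 < ‖z‖ := norm_pos_iff.mpr hz.2
  have hW : 1 ≤ 1 + a * ‖h z‖ ^ 2 := by
    have : 0 ≤ a * ‖h z‖ ^ 2 := by positivity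
    linarith
  have ht0 : 0 ≤ tau z := by unfold tau; nlinarith
  have ht1 : tau z ≤ 1 := by unfold tau; nlinarith [sq_nonneg ‖z‖]
  have h1 : |(z * deriv h z * conj (h z)).re| ≤ C ^ 2 * ‖z‖ ^ 2 := by
    refine (Complex.abs_re_le_norm _).trans ?_
    rw [norm_mul, norm_mul, RCLike.norm_conj]
    calc ‖z‖ * ‖deriv h z‖ * ‖h z‖ ≤ ‖z‖ * C * (C * ‖z‖) := by gcongr
      _ = C ^ 2 * ‖z‖ ^ 2 := by ring
  have h2 : |tau z * (z * deriv h z * conj (h z)).re / ‖z‖ ^ 2| ≤ C ^ 2 := by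
    rw [abs_div, abs_mul, abs_of_nonneg ht0, abs_of_pos (by positivity : 0 < ‖z‖ ^ 2),
      div_le_iff₀ (by positivity)]
    calc tau z * |(z * deriv h z * conj (h z)).re| ≤ 1 * (C ^ 2 * ‖z‖ ^ 2) := by gcongr
      _ = _ := one_mul _
  have h3 : |tau z ^ 2 * ‖deriv h z‖ ^ 2| ≤ C ^ 2 := by
    rw [abs_of_nonneg (by positivity)]
    calc tau z ^ 2 * ‖deriv h z‖ ^ 2 ≤ 1 ^ 2 * C ^ 2 := by gcongr
      _ = _ := by ring
  unfold KK
  rw [abs_div, abs_of_pos (by positivity : 0 < (1 + a * ‖h z‖ ^ 2) ^ 2)]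
  refine (div_le_self (abs_nonneg _) (one_le_pow₀ hW)).trans ?_
  refine (abs_sub _ _).trans ?_
  linarith

lemma LL_bound (ha : 0 < a) {C : ℝ} (hC : 0 ≤ C) {z : ℂ} (hz : z ∈ ball (0 : ℂ) 1)
    (hb : ‖h z‖ ≤ C * ‖z‖) : |LL a h z| ≤ 2 * C ^ 2 := by
  have hz1 : ‖z‖ < 1 := by simpa using hz
  have hW : 1 ≤ 1 + a * ‖h z‖ ^ 2 := by
    have : 0 ≤ a * ‖h z‖ ^ 2 := by positivity
    linarith
  have hbC : ‖h z‖ ≤ C := hb.trans (by nlinarith [norm_nonneg z])
  have hh2 : ‖h z‖ ^ 2 ≤ C ^ 2 := pow_le_pow_left₀ (norm_nonneg _) hbC 2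
  have hl0 : 0 ≤ Real.log (1 + a * ‖h z‖ ^ 2) := Real.log_nonneg hW
  have hl1 : Real.log (1 + a * ‖h z‖ ^ 2) ≤ a * ‖h z‖ ^ 2 := by
    have := Real.log_le_sub_one_of_pos (WR_pos ha h z)
    linarith
  have h1 : |(4 * ‖z‖ ^ 2 - 2) / (4 * a)| ≤ 1 / (2 * a) := by
    rw [abs_div, abs_of_pos (by positivity : 0 < 4 * a), div_le_div_iff₀ (by positivity)
      (by positivity)]
    have : |4 * ‖z‖ ^ 2 - 2| ≤ 2 := by
      rw [abs_le]
      constructor <;> nlinarith [norm_nonneg z, sq_nonneg ‖z‖]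
    nlinarith
  have h2 : |(4 * ‖z‖ ^ 2 - 2) / (4 * a) * Real.log (1 + a * ‖h z‖ ^ 2)| ≤ C ^ 2 := by
    rw [abs_mul, abs_of_nonneg hl0]
    calc |(4 * ‖z‖ ^ 2 - 2) / (4 * a)| * Real.log (1 + a * ‖h z‖ ^ 2)
        ≤ 1 / (2 * a) * (a * ‖h z‖ ^ 2) := by gcongr
      _ = ‖h z‖ ^ 2 / 2 := by field_simp
      _ ≤ C ^ 2 := by nlinarith [sq_nonneg C]
  have h3 : |‖h z‖ ^ 2 / (2 * (1 + a * ‖h z‖ ^ 2))| ≤ C ^ 2 := by
    rw [abs_of_nonneg (by positivity)]
    refine (div_le_self (by positivity) (by linarith)).trans hh2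
  unfold LL
  refine (abs_sub _ _).trans ?_
  linarith

lemma continuousOn_KK (ha : 0 < a) (hh : DifferentiableOn ℂ h (ball 0 1)) :
    ContinuousOn (KK a h) (ball 0 1 \ {0}) := by
  have h1 : ContinuousOn h (ball (0 : ℂ) 1 \ {0}) := hh.continuousOn.mono sdiff_subset
  have h2 : ContinuousOn (fun z => conj (h z)) (ball (0 : ℂ) 1 \ {0}) :=
    Complex.continuous_conj.comp_continuousOn h1
  have h3 : ContinuousOn (deriv h) (ball (0 : ℂ) 1 \ {0}) :=
    (hh.deriv isOpen_ball).continuousOn.mono sdiff_subset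
  have ht : ContinuousOn tau (ball (0 : ℂ) 1 \ {0}) := by
    unfold tau
    fun_prop
  have hn : ContinuousOn (fun z : ℂ => ‖z‖ ^ 2) (ball (0 : ℂ) 1 \ {0}) := by fun_prop
  unfold KK
  refine ContinuousOn.div (((ht.pow 2).mul (h3.norm.pow 2)).sub ((ht.mul
    (Complex.continuous_re.comp_continuousOn ((continuousOn_id.mul h3).mul h2))).div hn ?_))
    ((continuousOn_const.add (continuousOn_const.mul (h1.norm.pow 2))).pow 2) ?_
  · intro z hz
    exact pow_ne_zero 2 (norm_ne_zero_iff.mpr hz.2)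
  · intro z _
    exact pow_ne_zero 2 (WR_pos ha h z).ne'

lemma continuousOn_LL (ha : 0 < a) (hh : DifferentiableOn ℂ h (ball 0 1)) :
    ContinuousOn (LL a h) (ball 0 1) := by
  have h1 : ContinuousOn h (ball (0 : ℂ) 1) := hh.continuousOn
  have hn : ContinuousOn (fun z : ℂ => (4 * ‖z‖ ^ 2 - 2) / (4 * a)) (ball (0 : ℂ) 1) := by
    fun_prop
  have hw : ContinuousOn (fun z : ℂ => 1 + a * ‖h z‖ ^ 2) (ball (0 : ℂ) 1) :=
    continuousOn_const.add (continuousOn_const.mul (h1.norm.pow 2))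
  unfold LL
  refine (hn.mul (hw.log fun z _ => (WR_pos ha h z).ne')).sub
    ((h1.norm.pow 2).div (continuousOn_const.mul hw) fun z _ => ?_)
  have := WR_pos ha h z
  positivity

lemma psi_bound (ha : 0 < a) {C : ℝ} (hC : 0 ≤ C)
    (hb : ∀ z ∈ ball (0 : ℂ) 1, ‖h z‖ ≤ C * ‖z‖)
    (hb' : ∀ z ∈ ball (0 : ℂ) 1, ‖deriv h z‖ ≤ C) {r : ℝ} (hr0 : 0 < r) (hr1 : r < 1) :
    ‖psi a h r‖ ≤ (6 * π * C ^ 2) * ((1 - r ^ 2) * r ^ 2) := by
  have hmem := fun θ : ℝ => circleMap_mem_unit hr0.le hr1 θ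
  have hn : ∀ θ : ℝ, ‖circleMap 0 r θ‖ = r := fun θ => by
    rw [norm_circleMap_zero, abs_of_pos hr0]
  have hpp : |π - -π| = 2 * π := by
    rw [show π - -π = 2 * π by ring, abs_of_pos (by positivity)]
  have hWi : ∀ z : ℂ, ‖(WW a h z)⁻¹‖ ≤ 1 := by
    intro z
    rw [WW_eq, norm_inv, Complex.norm_real, Real.norm_eq_abs, abs_of_pos (WR_pos ha h z)]
    apply inv_le_one_of_one_le₀
    have : 0 ≤ a * ‖h z‖ ^ 2 := by positivity
    linarith
  have hh2 : ∀ θ : ℝ, ‖h (circleMap 0 r θ)‖ ≤ C * r := fun θ => by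
    have := hb _ (hmem θ)
    rwa [hn] at this
  have b1 : ‖∫ θ in (-π)..π, HH a h (circleMap 0 r θ)‖ ≤ a * C ^ 2 * r ^ 2 * (2 * π) := by
    rw [← hpp]
    apply intervalIntegral.norm_integral_le_of_norm_le_const
    intro θ _
    unfold HH
    rw [norm_mul, norm_mul, norm_mul, RCLike.norm_conj, norm_mul, hn, Complex.norm_real,
      Real.norm_eq_abs, abs_of_pos ha]
    have h1 := hWi (circleMap 0 r θ)
    have h2 := hh2 θ
    have h3 := hb' _ (hmem θ)
    calc a * ‖h (circleMap 0 r θ)‖ * (r * ‖deriv h (circleMap 0 r θ)‖) *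
          ‖(WW a h (circleMap 0 r θ))⁻¹‖ ≤ a * (C * r) * (r * C) * 1 := by gcongr
      _ = _ := by ring
  have b2 : ‖∫ θ in (-π)..π, UU a h (circleMap 0 r θ)‖ ≤ a * C ^ 2 * (2 * π) := by
    rw [← hpp]
    apply intervalIntegral.norm_integral_le_of_norm_le_const
    intro θ _
    rw [UU_eq ha, Complex.norm_real, Real.norm_eq_abs, abs_of_nonneg (Real.log_nonneg (by
      have : 0 ≤ a * ‖h (circleMap 0 r θ)‖ ^ 2 := by positivity
      linarith))]
    have h1 := Real.log_le_sub_one_of_pos (WR_pos ha h (circleMap 0 r θ))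
    have h2 : ‖h (circleMap 0 r θ)‖ ≤ C := (hh2 θ).trans (by nlinarith)
    calc Real.log (1 + a * ‖h (circleMap 0 r θ)‖ ^ 2) ≤ a * ‖h (circleMap 0 r θ)‖ ^ 2 := by
          linarith
      _ ≤ a * C ^ 2 := by gcongr
  have b3 : ‖∫ θ in (-π)..π, BB a h (circleMap 0 r θ)‖ ≤ C ^ 2 * r ^ 2 * (2 * π) := by
    rw [← hpp]
    apply intervalIntegral.norm_integral_le_of_norm_le_const
    intro θ _
    unfold BB
    rw [norm_mul, norm_mul, RCLike.norm_conj]
    have h1 := hWi (circleMap 0 r θ)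
    have h2 := hh2 θ
    calc ‖h (circleMap 0 r θ)‖ * ‖h (circleMap 0 r θ)‖ *
          ‖(WW a h (circleMap 0 r θ))⁻¹‖ ≤ (C * r) * (C * r) * 1 := by gcongr
      _ = _ := by ring
  have hq : 0 < 1 - r ^ 2 := by nlinarith
  have hq1 : 1 - r ^ 2 ≤ 1 := by nlinarith
  have hn1 : ‖(((1 - r ^ 2) / 2 : ℝ) : ℂ)‖ = (1 - r ^ 2) / 2 := by
    rw [Complex.norm_real, Real.norm_eq_abs, abs_of_pos (by positivity)]
  have hn2 : ‖(a : ℂ)‖ = a := by rw [Complex.norm_real, Real.norm_eq_abs, abs_of_pos ha]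
  have hn3 : ‖(r : ℂ)‖ = r := by rw [Complex.norm_real, Real.norm_eq_abs, abs_of_pos hr0]
  have hpi := Real.pi_pos
  unfold psi
  refine (norm_sub_le _ _).trans ((add_le_add_left (norm_add_le _ _) _).trans ?_)
  simp only [norm_mul, norm_div, norm_pow, hn1, hn2, hn3, Complex.norm_ofNat]
  calc ((1 - r ^ 2) / 2) ^ 2 / (2 * a) * ‖∫ θ in (-π)..π, HH a h (circleMap 0 r θ)‖ +
        (1 - r ^ 2) / 2 * r ^ 2 / (2 * a) * ‖∫ θ in (-π)..π, UU a h (circleMap 0 r θ)‖ +
        (1 - r ^ 2) / 2 / 2 * ‖∫ θ in (-π)..π, BB a h (circleMap 0 r θ)‖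
      ≤ ((1 - r ^ 2) / 2) ^ 2 / (2 * a) * (a * C ^ 2 * r ^ 2 * (2 * π)) +
        (1 - r ^ 2) / 2 * r ^ 2 / (2 * a) * (a * C ^ 2 * (2 * π)) +
        (1 - r ^ 2) / 2 / 2 * (C ^ 2 * r ^ 2 * (2 * π)) := by gcongr
    _ = (((1 - r ^ 2) / 4 + 1 / 2 + 1 / 2) * π * C ^ 2) * ((1 - r ^ 2) * r ^ 2) := by
        field_simp
        ring
    _ ≤ (6 * π * C ^ 2) * ((1 - r ^ 2) * r ^ 2) := by
        gcongr
        linarith

/-- **Green's identity** for `log (1 + a |h|²)`. -/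
theorem green (ha : 0 < a) (hh : DifferentiableOn ℂ h (ball 0 1)) {C : ℝ} (hC : 0 ≤ C)
    (hb : ∀ z ∈ ball (0 : ℂ) 1, ‖h z‖ ≤ C * ‖z‖)
    (hb' : ∀ z ∈ ball (0 : ℂ) 1, ‖deriv h z‖ ≤ C) :
    IntegrableOn (KK a h) (ball 0 1) ∧ IntegrableOn (LL a h) (ball 0 1) ∧
    ∫ z in ball (0 : ℂ) 1, KK a h z = ∫ z in ball (0 : ℂ) 1, LL a h z := by
  have hbK : ∀ z ∈ ball (0 : ℂ) 1 \ {0}, |KK a h z| ≤ 0 * ‖z‖ ^ ((2 : ℝ) - 2) + 2 * C ^ 2 := by
    intro z hz
    rw [zero_mul, zero_add]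
    exact KK_bound ha hC hz (hb z hz.1) (hb' z hz.1)
  have hbL : ∀ z ∈ ball (0 : ℂ) 1 \ {0}, |LL a h z| ≤ 0 * ‖z‖ ^ ((2 : ℝ) - 2) + 2 * C ^ 2 := by
    intro z hz
    rw [zero_mul, zero_add]
    exact LL_bound ha hC hz.1 (hb z hz.1)
  have cK := continuousOn_KK ha hh
  have cL := (continuousOn_LL ha hh).mono (sdiff_subset (t := {0}))
  obtain ⟨iK, eK⟩ := Par6.polar_iterated cK two_pos hbK
  obtain ⟨iL, eL⟩ := Par6.polar_iterated cL two_pos hbL
  refine ⟨iK, iL, ?_⟩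
  have hpi := Real.pi_pos
  -- circle integrals
  set fK : ℝ → ℝ := fun r => r * ∫ θ in (-π)..π, KK a h (circleMap 0 r θ) with hfK
  set fL : ℝ → ℝ := fun r => r * ∫ θ in (-π)..π, LL a h (circleMap 0 r θ) with hfL
  have hmem : ∀ r ∈ Ioo (0 : ℝ) 1, ∀ θ : ℝ, circleMap 0 r θ ∈ ball (0 : ℂ) 1 \ {0} := by
    intro r hr θ
    refine ⟨circleMap_mem_unit hr.1.le hr.2 _, ?_⟩
    rw [mem_singleton_iff, ← norm_eq_zero, norm_circleMap_zero, abs_of_pos hr.1]
    exact hr.1.ne'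
  have hcK : ∀ r ∈ Ioo (0 : ℝ) 1, Continuous fun θ : ℝ => KK a h (circleMap 0 r θ) := fun r hr =>
    cK.comp_continuous (continuous_circleMap 0 r) (hmem r hr)
  have hcL : ∀ r ∈ Ioo (0 : ℝ) 1, Continuous fun θ : ℝ => LL a h (circleMap 0 r θ) := fun r hr =>
    cL.comp_continuous (continuous_circleMap 0 r) (hmem r hr)
  have hder : ∀ r ∈ Ioo (0 : ℝ) 1, HasDerivAt (fun r => (psi a h r).re) (fK r - fL r) r := by
    intro r hr
    have h1 := Complex.reCLM.hasFDerivAt.comp_hasDerivAt r (deriv_psi ha hh hr.1 hr.2)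
    have hn : ∀ θ : ℝ, ‖circleMap 0 r θ‖ = r := fun θ => by
      rw [norm_circleMap_zero, abs_of_pos hr.1]
    refine h1.congr_deriv ?_
    have hGc : Continuous fun θ : ℝ => GG a h r (circleMap 0 r θ) := by
      have hm1 := fun θ : ℝ => (hmem r hr θ).1
      have hz := continuous_circleMap (0 : ℂ) r
      have q1 : Continuous fun θ : ℝ => h (circleMap 0 r θ) :=
        hh.continuousOn.comp_continuous hz hm1
      have q3 : Continuous fun θ : ℝ => deriv h (circleMap 0 r θ) :=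
        (hh.deriv isOpen_ball).continuousOn.comp_continuous hz hm1
      have q5 : Continuous fun θ : ℝ => (WW a h (circleMap 0 r θ))⁻¹ :=
        (continuousOn_WWinv ha hh).comp_continuous hz hm1
      have qU : Continuous fun θ : ℝ => UU a h (circleMap 0 r θ) := by
        have e : (fun θ : ℝ => UU a h (circleMap 0 r θ)) = fun θ : ℝ =>
            ((Real.log (1 + a * ‖h (circleMap 0 r θ)‖ ^ 2) : ℝ) : ℂ) := by
          funext θ
          exact UU_eq ha h _
        rw [e]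
        refine Complex.continuous_ofReal.comp (Continuous.log ?_ fun θ => (WR_pos ha h _).ne')
        exact continuous_const.add (continuous_const.mul (q1.norm.pow 2))
      have qB : Continuous fun θ : ℝ => BB a h (circleMap 0 r θ) :=
        (q1.mul (Complex.continuous_conj.comp q1)).mul q5
      unfold GG
      exact (((continuous_const.mul (continuous_const.mul ((((continuous_const.mul q3).mul
        (Complex.continuous_conj.comp (hz.mul q3))).mul (q5.pow 2)).mul hz))).sub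
        (continuous_const.mul (continuous_const.mul (((q3.mul
          (Complex.continuous_conj.comp q1)).mul (q5.pow 2)).mul hz)))).add
        (continuous_const.mul qU)).add (continuous_const.mul qB)
    have h2 : (Complex.reCLM (∫ θ in (-π)..π, GG a h r (circleMap 0 r θ))) =
        ∫ θ in (-π)..π, Complex.reCLM (GG a h r (circleMap 0 r θ)) :=
      (Complex.reCLM.intervalIntegral_comp_comm (hGc.intervalIntegrable _ _)).symm
    rw [h2]
    have h3 : ∀ θ : ℝ, Complex.reCLM (GG a h r (circleMap 0 r θ)) =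
        r * KK a h (circleMap 0 r θ) - r * LL a h (circleMap 0 r θ) := fun θ => by
      rw [Complex.reCLM_apply]
      exact GG_re ha hr.1 (hn θ)
    simp only [h3]
    have c1 : Continuous fun θ : ℝ => r * KK a h (circleMap 0 r θ) :=
      continuous_const.mul (hcK r hr)
    have c2 : Continuous fun θ : ℝ => r * LL a h (circleMap 0 r θ) :=
      continuous_const.mul (hcL r hr)
    rw [intervalIntegral.integral_sub (c1.intervalIntegrable _ _) (c2.intervalIntegrable _ _),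
      intervalIntegral.integral_const_mul, intervalIntegral.integral_const_mul]
  -- bounds of the circle integrals
  have hbd : ∀ F : ℂ → ℝ, (∀ z ∈ ball (0 : ℂ) 1 \ {0}, |F z| ≤ 0 * ‖z‖ ^ ((2 : ℝ) - 2) + 2 * C ^ 2) →
      ∀ r ∈ Ioo (0 : ℝ) 1, |r * ∫ θ in (-π)..π, F (circleMap 0 r θ)| ≤ 2 * C ^ 2 * (2 * π) := by
    intro F hF r hr
    have h1 : ‖∫ θ in (-π)..π, F (circleMap 0 r θ)‖ ≤ 2 * C ^ 2 * |π - -π| := by
      apply intervalIntegral.norm_integral_le_of_norm_le_const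
      intro θ _
      have := hF _ (hmem r hr θ)
      rw [zero_mul, zero_add] at this
      exact this
    rw [show π - -π = 2 * π by ring, abs_of_pos (by positivity : 0 < 2 * π)] at h1
    rw [abs_mul, abs_of_pos hr.1]
    calc r * |∫ θ in (-π)..π, F (circleMap 0 r θ)| ≤ 1 * (2 * C ^ 2 * (2 * π)) := by
          gcongr
          · exact hr.2.le
          · exact h1
      _ = _ := one_mul _
  have hmeas : AEStronglyMeasurable (fun r => fK r - fL r) (volume.restrict (Ioo (0 : ℝ) 1)) := by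
    have h1 : AEStronglyMeasurable (deriv fun r => (psi a h r).re)
        (volume.restrict (Ioo (0 : ℝ) 1)) := (measurable_deriv _).aestronglyMeasurable
    refine h1.congr ((ae_restrict_iff' measurableSet_Ioo).mpr (Eventually.of_forall fun r hr => ?_))
    exact (hder r hr).deriv
  have hintD : IntegrableOn (fun r => fK r - fL r) (Ioo 0 1) := by
    refine Integrable.of_bound hmeas (4 * C ^ 2 * (2 * π))
      ((ae_restrict_iff' measurableSet_Ioo).mpr (Eventually.of_forall fun r hr => ?_))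
    have h1 := hbd _ hbK r hr
    have h2 := hbd _ hbL r hr
    rw [Real.norm_eq_abs]
    refine (abs_sub _ _).trans ?_
    simp only [hfK, hfL]
    linarith
  have hlim : ∀ l : Filter ℝ, (∀ᶠ r in l, r ∈ Ioo (0 : ℝ) 1) →
      Tendsto (fun r : ℝ => (1 - r ^ 2) * r ^ 2) l (𝓝 0) →
      Tendsto (fun r => (psi a h r).re) l (𝓝 0) := by
    intro l hl ht
    have h1 : Tendsto (fun r : ℝ => (6 * π * C ^ 2) * ((1 - r ^ 2) * r ^ 2)) l (𝓝 0) := by
      simpa using ht.const_mul (6 * π * C ^ 2)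
    refine squeeze_zero_norm' ?_ h1
    filter_upwards [hl] with r hr
    rw [Real.norm_eq_abs]
    exact (Complex.abs_re_le_norm _).trans (psi_bound ha hC hb hb' hr.1 hr.2)
  have hl0 : Tendsto (fun r => (psi a h r).re) (𝓝[>] 0) (𝓝 0) := by
    refine hlim _ (Ioo_mem_nhdsGT one_pos) ?_
    have : Continuous fun r : ℝ => (1 - r ^ 2) * r ^ 2 := by fun_prop
    have h1 := this.tendsto 0
    simp only [ne_eq, OfNat.ofNat_ne_zero, not_false_eq_true, zero_pow, sub_zero, mul_zero] at h1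
    exact h1.mono_left nhdsWithin_le_nhds
  have hl1 : Tendsto (fun r => (psi a h r).re) (𝓝[<] 1) (𝓝 0) := by
    refine hlim _ (Ioo_mem_nhdsLT one_pos) ?_
    have : Continuous fun r : ℝ => (1 - r ^ 2) * r ^ 2 := by fun_prop
    have h1 := this.tendsto 1
    simp only [one_pow, sub_self, zero_mul] at h1
    exact h1.mono_left nhdsWithin_le_nhds
  have hFTC := intervalIntegral.integral_eq_sub_of_hasDerivAt_of_tendsto zero_lt_one hder
    ((intervalIntegrable_iff_integrableOn_Ioo_of_le zero_le_one).mpr hintD) hl0 hl1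
  rw [sub_zero, intervalIntegral.integral_of_le zero_le_one, integral_Ioc_eq_integral_Ioo] at hFTC
  -- difference of the two integrals
  have hbD : ∀ z ∈ ball (0 : ℂ) 1 \ {0}, |KK a h z - LL a h z| ≤
      0 * ‖z‖ ^ ((2 : ℝ) - 2) + 4 * C ^ 2 := by
    intro z hz
    have h1 := hbK z hz
    have h2 := hbL z hz
    refine (abs_sub _ _).trans ?_
    linarith
  have eD := (Par6.polar_iterated (F := fun z => KK a h z - LL a h z) (cK.sub cL) two_pos hbD).2
  rw [← sub_eq_zero, ← integral_sub iK iL]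
  rw [eD]
  refine Eq.trans ?_ hFTC
  refine setIntegral_congr_fun measurableSet_Ioo fun r hr => ?_
  simp only [hfK, hfL]
  rw [intervalIntegral.integral_sub ((hcK r hr).intervalIntegrable _ _)
    ((hcL r hr).intervalIntegrable _ _), mul_sub]

end

end Vale.Agent.P142.H838
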