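import Vale.Agent.P142.Bdl.B1

/-!
P142, endpoint form of Brennan's conjecture: layer cake with the bounded weight
`V = (|h|² / (1 + a |h|²))²`, `h = z / f'`, in the comparison of the two parts of the Jacobian.
-/

open Complex MeasureTheory Metric Set Filter Topology
open scoped Real ComplexConjugate ENNReal

namespace Vale.Agent.P142.H838

open Vale.Agent.P142.Brn

noncomputable section

/-- the weight -/
def VV (a y : ℝ) : ℝ := (y ^ 2 / (1 + a * y ^ 2)) ^ 2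

lemma VV_nonneg (a y : ℝ) : 0 ≤ VV a y := sq_nonneg _

lemma VV_le {a y : ℝ} (ha : 0 < a) : VV a y ≤ (1 / a) ^ 2 := by
  unfold VV
  have h1 : 0 < 1 + a * y ^ 2 := by positivity
  apply pow_le_pow_left₀ (by positivity)
  rw [div_le_div_iff₀ h1 ha]
  nlinarith

lemma VV_le' {a y : ℝ} (ha : 0 < a) : VV a y ≤ y ^ 4 := by
  unfold VV
  have h1 : 1 ≤ 1 + a * y ^ 2 := by
    have : 0 ≤ a * y ^ 2 := by positivity
    linarith
  have h2 : y ^ 2 / (1 + a * y ^ 2) ≤ y ^ 2 := div_le_self (by positivity) h1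
  calc (y ^ 2 / (1 + a * y ^ 2)) ^ 2 ≤ (y ^ 2) ^ 2 :=
        pow_le_pow_left₀ (by positivity) h2 2
    _ = y ^ 4 := by ring

lemma measurable_VV (a : ℝ) : Measurable (VV a) := by
  unfold VV
  fun_prop

/-- The superlevel sets of `VV a ∘ Y` are superlevel sets of `Y` or empty. -/
lemma VV_level {a : ℝ} (ha : 0 < a) {τ : ℝ} (hτ : 0 < τ) :
    (∀ y : ℝ, 0 ≤ y → ¬ τ < VV a y) ∨
      ∃ s : ℝ, 0 < s ∧ ∀ y : ℝ, 0 ≤ y → (τ < VV a y ↔ s < y) := by
  set q : ℝ := √τ with hq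
  have hq0 : 0 < q := Real.sqrt_pos.mpr hτ
  have hqq : q ^ 2 = τ := Real.sq_sqrt hτ.le
  have key : ∀ y : ℝ, (τ < VV a y ↔ q < y ^ 2 / (1 + a * y ^ 2)) := by
    intro y
    have h1 : 0 ≤ y ^ 2 / (1 + a * y ^ 2) := by positivity
    unfold VV
    rw [← hqq]
    exact pow_lt_pow_iff_left₀ hq0.le h1 two_ne_zero
  rcases le_or_gt (1 - a * q) 0 with h | h
  · left
    intro y _ hlt
    rw [key y, lt_div_iff₀ (by positivity)] at hlt
    nlinarith [sq_nonneg y]
  · right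
    have hs : 0 < √(q / (1 - a * q)) := Real.sqrt_pos.mpr (div_pos hq0 h)
    have hs2 : √(q / (1 - a * q)) ^ 2 = q / (1 - a * q) := Real.sq_sqrt (div_pos hq0 h).le
    refine ⟨√(q / (1 - a * q)), hs, fun y hy => ?_⟩
    rw [key y, lt_div_iff₀ (by positivity), ← pow_lt_pow_iff_left₀ hs.le hy two_ne_zero, hs2,
      div_lt_iff₀ h]
    constructor <;> intro h2 <;> nlinarith

/-- the weighted comparison, Tonelli form -/
theorem lintegral_VV_le {f : ℂ → ℂ} {R : ℝ} (hf : Nice f R) {a : ℝ} (ha : 0 < a) :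
    ∫⁻ z in ball (0 : ℂ) 1, ENNReal.ofReal (VV a (‖z‖ / ‖deriv f z‖) * JJ f z) ≤
      ∫⁻ z in ball (0 : ℂ) 1, ENNReal.ofReal (-(VV a (‖z‖ / ‖deriv f z‖) * JJ f z)) := by
  have hY0 : ∀ z : ℂ, 0 ≤ ‖z‖ / ‖deriv f z‖ := fun z => by positivity
  have hYm : Measurable fun z : ℂ => ‖z‖ / ‖deriv f z‖ :=
    measurable_norm.div (measurable_deriv f).norm
  have h := lintegral_rpow_mul_le (μ := volume.restrict (ball (0 : ℂ) 1))
    (Y := fun z : ℂ => VV a (‖z‖ / ‖deriv f z‖)) ((measurable_VV a).comp hYm)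
    (fun z => VV_nonneg _ _) (measurable_JJ f).ennreal_ofReal (measurable_JJ f).neg.ennreal_ofReal
    one_pos (fun s hs => by
      rcases VV_level ha hs with h1 | ⟨σ, hσ, h1⟩
      · have e : {z : ℂ | s < VV a (‖z‖ / ‖deriv f z‖)} = ∅ := by
          ext z
          simp only [mem_ofPred_eq, mem_empty_iff_false, iff_false]
          exact h1 _ (hY0 z)
        rw [e]
        simp
      · have e : {z : ℂ | s < VV a (‖z‖ / ‖deriv f z‖)} = {z : ℂ | σ < ‖z‖ / ‖deriv f z‖} := by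
          ext z
          exact h1 _ (hY0 z)
        rw [e]
        exact level_le blockH1 blockA3' hf hσ)
  have e : ∀ (z : ℂ) (J : ℝ), ENNReal.ofReal (VV a (‖z‖ / ‖deriv f z‖) ^ (1 : ℝ)) *
      ENNReal.ofReal J = ENNReal.ofReal (VV a (‖z‖ / ‖deriv f z‖) * J) := fun z J => by
    rw [Real.rpow_one, ← ENNReal.ofReal_mul (VV_nonneg _ _)]
  simp only [e, Pi.neg_apply, mul_neg] at h
  exact h

end

end Vale.Agent.P142.H838
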