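import Mathlib.Analysis.Complex.Schwarz
import Vale.Agent.P142.Bdl.B1

/-!
P142, endpoint form of Brennan's conjecture: uniform bounds for `|f'|` on the class `S`.
-/

open Complex MeasureTheory Metric Set Filter Topology
open scoped Real ComplexConjugate ENNReal

namespace Vale.Agent.P142.H838

open Vale.Agent.P142.Brn

noncomputable section

variable {F f : ℂ → ℂ} {z c : ℂ}

lemma univ_of_classS (hf : f ∈ ClassS) : Univ f := ⟨hf.1, hf.2.1⟩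

/-- Schwarz' lemma for the inverse of a normalised univalent function. -/
lemma inverse_schwarz (hF : Univ F) (h0 : F 0 = 0) (h1 : deriv F 0 = 1) {ρ : ℝ} (hρ : 0 < ρ)
    (hsub : ball 0 ρ ⊆ F '' ball 0 1) : ρ ≤ 1 := by
  set G : ℂ → ℂ := Function.invFunOn F (ball 0 1) with hG
  have h00 : (0 : ℂ) ∈ ball (0 : ℂ) 1 := mem_ball_self one_pos
  have hleft : ∀ x ∈ ball (0 : ℂ) 1, G (F x) = x := fun x hx =>
    hF.2.leftInvOn_invFunOn hx
  have hright : ∀ w ∈ ball (0 : ℂ) ρ, G w ∈ ball (0 : ℂ) 1 ∧ F (G w) = w := by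
    intro w hw
    obtain ⟨x, hx, rfl⟩ := hsub hw
    rw [hleft x hx]
    exact ⟨hx, rfl⟩
  have hder : ∀ w ∈ ball (0 : ℂ) ρ, HasDerivAt G (deriv F (G w))⁻¹ w := by
    intro w hw
    obtain ⟨ha, hb⟩ := hright w hw
    have hd : HasStrictDerivAt F (deriv F (G w)) (G w) :=
      (hF.1.analyticAt (isOpen_ball.mem_nhds ha)).hasStrictDerivAt
    have hne : deriv F (G w) ≠ 0 := univ_deriv_ne_zero hF ha
    have hev : ∀ᶠ x in 𝓝 (G w), G (F x) = x := by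
      filter_upwards [isOpen_ball.mem_nhds ha] with x hx using hleft x hx
    have h2 := hd.to_local_left_inverse hne hev
    rw [hb] at h2
    exact h2.hasDerivAt
  have hG0 : G 0 = 0 := by
    have := hleft 0 h00
    rwa [h0] at this
  have hw0 : (0 : ℂ) ∈ ball (0 : ℂ) ρ := mem_ball_self hρ
  have hd0 : deriv G 0 = 1 := by
    rw [(hder 0 hw0).deriv, hG0, h1, inv_one]
  have hmaps : MapsTo G (ball 0 ρ) (ball (G 0) 1) := by
    rw [hG0]
    exact fun w hw => (hright w hw).1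
  have h3 := Complex.norm_deriv_le_div_of_mapsTo_ball
    (fun w hw => (hder w hw).differentiableAt.differentiableWithinAt)
    (hmaps.mono_right ball_subset_closedBall) hρ
  rw [hd0, norm_one, le_div_iff₀ hρ, one_mul] at h3
  exact h3

/-- A function of class `S` omits a value of modulus less than `2`. -/
lemma exists_omitted_lt (hf : f ∈ ClassS) : ∃ c : ℂ, ‖c‖ < 2 ∧ ∀ z ∈ ball (0 : ℂ) 1, f z ≠ c := by
  by_contra hcon
  push Not at hcon
  have hsub : ball (0 : ℂ) 2 ⊆ f '' ball 0 1 := by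
    intro c hc
    rw [mem_ball_zero_iff] at hc
    obtain ⟨z, hz, h⟩ := hcon c hc
    exact ⟨z, hz, h⟩
  have := inverse_schwarz (univ_of_classS hf) hf.2.2.1 hf.2.2.2 two_pos hsub
  norm_num at this

/-- Distance of the values to the omitted values. -/
lemma omitted_lower (hf : f ∈ ClassS) (hc : ∀ z ∈ ball (0 : ℂ) 1, f z ≠ c)
    (hz : z ∈ ball (0 : ℂ) 1) : (1 - ‖z‖) ^ 2 / 16 ≤ ‖f z - c‖ := by
  have hcs : ∀ z ∈ ball (0 : ℂ) 1, f z - c ≠ 0 := fun z hz => sub_ne_zero.mpr (hc z hz)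
  set k : ℂ → ℂ := fun z => (f z - c)⁻¹ with hk
  have hkU : Univ k := by
    refine ⟨(hf.1.sub_const c).inv hcs, ?_⟩
    intro x hx y hy hxy
    simp only [hk] at hxy
    apply hf.2.1 hx hy
    have := inv_injective hxy
    linear_combination this
  have hkne : ∀ z ∈ ball (0 : ℂ) 1, k z ≠ 0 := fun z hz => inv_ne_zero (hcs z hz)
  have h1 := growth hkU hkne hz
  have h2 := quarter hf.1 hf.2.1 hf.2.2.1 hf.2.2.2 hc
  have hz1 : 0 < 1 - ‖z‖ := by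
    rw [mem_ball_zero_iff] at hz
    linarith
  have hcpos : 0 < ‖c‖ := by
    by_contra h
    have : ‖c‖ ≤ 0 := not_lt.mp h
    linarith
  have hpos : 0 < ‖f z - c‖ := norm_pos_iff.mpr (hcs z hz)
  have h3 : ‖k z‖ = ‖f z - c‖⁻¹ := by simp only [hk, norm_inv]
  have h4 : ‖k 0‖ = ‖c‖⁻¹ := by simp only [hk, norm_inv, hf.2.2.1, zero_sub, norm_neg]
  have h5 : ‖c‖⁻¹ ≤ 4 := by
    rw [inv_le_comm₀ hcpos (by norm_num)]
    linarith
  rw [h3, h4] at h1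
  have h6 : (1 - ‖z‖) ^ (-2 : ℝ) = ((1 - ‖z‖) ^ 2)⁻¹ := by
    rw [Real.rpow_neg hz1.le, Real.rpow_two]
  rw [h6] at h1
  have h7 : ‖f z - c‖⁻¹ ≤ 16 * ((1 - ‖z‖) ^ 2)⁻¹ := by
    refine h1.trans ?_
    have : 0 ≤ 4 * ((1 - ‖z‖) ^ 2)⁻¹ := by positivity
    nlinarith
  have h8 : 0 < (1 - ‖z‖) ^ 2 := by positivity
  rw [inv_eq_one_div, div_le_iff₀ hpos] at h7
  have h9 : (1 - ‖z‖) ^ 2 * 1 ≤ (1 - ‖z‖) ^ 2 * (16 * ((1 - ‖z‖) ^ 2)⁻¹ * ‖f z - c‖) :=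
    mul_le_mul_of_nonneg_left h7 h8.le
  have h10 : (1 - ‖z‖) ^ 2 * (16 * ((1 - ‖z‖) ^ 2)⁻¹ * ‖f z - c‖) = 16 * ‖f z - c‖ := by
    field_simp
  rw [h10] at h9
  linarith

/-- The disc automorphism is onto. -/
lemma mob_surj (hz : z ∈ ball (0 : ℂ) 1) {y : ℂ} (hy : y ∈ ball (0 : ℂ) 1) :
    ∃ ζ ∈ ball (0 : ℂ) 1, (ζ + z) / (1 + conj z * ζ) = y := by
  have hz' : -z ∈ ball (0 : ℂ) 1 := by
    rw [mem_ball_zero_iff] at *
    rwa [norm_neg]
  refine ⟨(y + -z) / (1 + conj (-z) * y), mob_mem hz' hy, ?_⟩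
  have h1 := den_ne hz' hy
  have hu : (1 : ℂ) - z * conj z ≠ 0 := by
    rw [Complex.mul_conj']
    have := unit_pos hz
    exact_mod_cast this.ne'
  set D : ℂ := 1 + conj (-z) * y with hD
  have eD : D = 1 - conj z * y := by rw [hD, map_neg]; ring
  have e1 : (y + -z) / D + z = y * (1 - z * conj z) / D := by
    rw [eq_div_iff h1, add_mul, div_mul_cancel₀ _ h1, eD]
    ring
  have e2 : 1 + conj z * ((y + -z) / D) = (1 - z * conj z) / D := by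
    rw [eq_div_iff h1, add_mul, ← mul_div_assoc, div_mul_cancel₀ _ h1, eD]
    ring
  rw [e1, e2, div_div_div_cancel_right₀ h1, mul_div_assoc, div_self hu, mul_one]

/-- Uniform lower bound of the derivative on the class `S`. -/
theorem deriv_ge (hf : f ∈ ClassS) (hz : z ∈ ball (0 : ℂ) 1) : (1 - ‖z‖) / 32 ≤ ‖deriv f z‖ := by
  have hU := univ_of_classS hf
  have hT := koebeT_univ hU hz
  have hu := unit_pos hz
  have hd := univ_deriv_ne_zero hU hz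
  have hdn : 0 < ‖deriv f z‖ := norm_pos_iff.mpr hd
  have hz1 : 0 < 1 - ‖z‖ := by
    rw [mem_ball_zero_iff] at hz
    linarith
  have hden : ((1 - ‖z‖ ^ 2 : ℝ) : ℂ) * deriv f z ≠ 0 :=
    mul_ne_zero (by exact_mod_cast hu.ne') hd
  have hdn' : ‖((1 - ‖z‖ ^ 2 : ℝ) : ℂ) * deriv f z‖ = (1 - ‖z‖ ^ 2) * ‖deriv f z‖ := by
    rw [norm_mul, Complex.norm_real, Real.norm_eq_abs, abs_of_pos hu]
  set ρ : ℝ := (1 - ‖z‖) ^ 2 / 16 / ((1 - ‖z‖ ^ 2) * ‖deriv f z‖) with hρ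
  have hρ0 : 0 < ρ := by positivity
  have hsub : ball (0 : ℂ) ρ ⊆ koebeT f z '' ball 0 1 := by
    intro w hw
    by_contra hcon
    set c : ℂ := f z + ((1 - ‖z‖ ^ 2 : ℝ) : ℂ) * deriv f z * w with hc
    have hom : ∀ y ∈ ball (0 : ℂ) 1, f y ≠ c := by
      intro y hy hyc
      obtain ⟨ζ, hζ, e⟩ := mob_surj hz hy
      apply hcon
      refine ⟨ζ, hζ, ?_⟩
      unfold koebeT
      rw [e, hyc, hc, add_sub_cancel_left]
      exact mul_div_cancel_left₀ w hden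
    have h1 := omitted_lower hf hom hz
    have h2 : ‖f z - c‖ = (1 - ‖z‖ ^ 2) * ‖deriv f z‖ * ‖w‖ := by
      rw [hc, sub_add_cancel_left, norm_neg, norm_mul, hdn']
    rw [h2] at h1
    rw [mem_ball_zero_iff, hρ, lt_div_iff₀ (by positivity)] at hw
    linarith
  have h3 := inverse_schwarz hT (koebeT_zero f z) (koebeT_deriv hU hz) hρ0 hsub
  rw [hρ, div_le_one (by positivity)] at h3
  have h4 : 1 - ‖z‖ ^ 2 = (1 - ‖z‖) * (1 + ‖z‖) := by ring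
  rw [h4] at h3
  have h5 : (1 - ‖z‖) * ((1 - ‖z‖) / 16) ≤ (1 - ‖z‖) * ((1 + ‖z‖) * ‖deriv f z‖) := by
    linarith
  have h6 := le_of_mul_le_mul_left h5 hz1
  nlinarith [norm_nonneg z]

/-- Uniform upper bound of the derivative on the class `S`. -/
theorem deriv_le (hf : f ∈ ClassS) (hz : z ∈ ball (0 : ℂ) 1) :
    ‖deriv f z‖ ≤ 32 / (1 - ‖z‖) ^ 3 := by
  obtain ⟨c, hc2, hc⟩ := exists_omitted_lt hf
  set k : ℂ → ℂ := fun z => f z - c with hk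
  have hkU : Univ k := ⟨hf.1.sub_const c, fun a ha b hb hab => hf.2.1 ha hb (by
    simp only [hk] at hab
    linear_combination hab)⟩
  have hne : ∀ z ∈ ball (0 : ℂ) 1, k z ≠ 0 := fun z hz => sub_ne_zero.mpr (hc z hz)
  have hkd : deriv k z = deriv f z := by rw [hk, deriv_sub_const]
  have h1 := nonvanish_bound hkU hne hz
  have h2 := growth hkU hne hz
  have hz1 : 0 < 1 - ‖z‖ := by
    rw [mem_ball_zero_iff] at hz
    linarith
  have hk0 : ‖k 0‖ ≤ 2 := by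
    simp only [hk, hf.2.2.1, zero_sub, norm_neg]
    exact hc2.le
  have h6 : (1 - ‖z‖) ^ (-2 : ℝ) = ((1 - ‖z‖) ^ 2)⁻¹ := by
    rw [Real.rpow_neg hz1.le, Real.rpow_two]
  rw [h6] at h2
  rw [hkd] at h1
  have h3 : ‖k z‖ ≤ 8 * ((1 - ‖z‖) ^ 2)⁻¹ := by
    refine h2.trans ?_
    have : 0 ≤ 4 * ((1 - ‖z‖) ^ 2)⁻¹ := by positivity
    nlinarith
  have h4 : (1 - ‖z‖) * ‖deriv f z‖ ≤ 32 * ((1 - ‖z‖) ^ 2)⁻¹ := by
    have : (1 - ‖z‖) * ‖deriv f z‖ ≤ (1 - ‖z‖ ^ 2) * ‖deriv f z‖ := by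
      apply mul_le_mul_of_nonneg_right _ (norm_nonneg _)
      nlinarith [norm_nonneg z]
    linarith
  rw [le_div_iff₀ (by positivity)]
  have h5 : (1 - ‖z‖) * ‖deriv f z‖ * (1 - ‖z‖) ^ 2 ≤ 32 * ((1 - ‖z‖) ^ 2)⁻¹ * (1 - ‖z‖) ^ 2 :=
    mul_le_mul_of_nonneg_right h4 (by positivity)
  rw [inv_mul_cancel_right₀ (by positivity)] at h5
  calc ‖deriv f z‖ * (1 - ‖z‖) ^ 3 = (1 - ‖z‖) * ‖deriv f z‖ * (1 - ‖z‖) ^ 2 := by ring
    _ ≤ 32 := h5

end

end Vale.Agent.P142.H838
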