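import Vale.Agent.P142.H838.Spec

/-!
P142, endpoint form of Brennan's conjecture: assembly.
-/

open MeasureTheory Metric Set
open scoped ENNReal Real

namespace Vale.Agent.P142.H838

theorem main :
    ((∀ (W : Set ℂ) (φ : ℂ → ℂ), IsOpen W → DifferentiableOn ℂ φ W → BijOn φ W (ball 0 1) →
      ∀ s : ℝ, 4 / 3 < s → s < 4 →
        ∫⁻ w in W, ENNReal.ofReal (‖deriv φ w‖ ^ s) < ⊤) ∧
    (∀ f : ℂ → ℂ, DifferentiableOn ℂ f (ball 0 1) → InjOn f (ball 0 1) →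
      ∀ t : ℝ, -2 < t → t < 2 / 3 →
        ∫⁻ z in ball (0 : ℂ) 1, ENNReal.ofReal (‖deriv f z‖ ^ t) < ⊤)) ∧
    (∃ C : ℝ, 0 < C ∧
      (∀ (W : Set ℂ) (φ : ℂ → ℂ), IsOpen W → DifferentiableOn ℂ φ W → BijOn φ W (ball 0 1) →
        ∀ a ∈ W, φ a = 0 →
        (∀ l : ℝ, 0 < l → volume {w | w ∈ W ∧ l * ‖deriv φ a‖ < ‖deriv φ w‖} ≤
          ENNReal.ofReal (C / ‖deriv φ a‖ ^ 2 * min (l ^ (-4 : ℝ)) (l ^ (-(4 / 3) : ℝ)))) ∧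
        (∀ s : ℝ, 4 / 3 < s → s < 4 → ∫⁻ w in W, ENNReal.ofReal (‖deriv φ w‖ ^ s) ≤
          ENNReal.ofReal (C * ‖deriv φ a‖ ^ (s - 2) / ((s - 4 / 3) * (4 - s))))) ∧
      (∀ f ∈ ClassS,
        (∀ l : ℝ, 0 < l →
          volume {z | z ∈ ball (0 : ℂ) 1 ∧ ‖deriv f z‖ < l} ≤ ENNReal.ofReal (C * l ^ 2) ∧
          volume {z | z ∈ ball (0 : ℂ) 1 ∧ l < ‖deriv f z‖} ≤
            ENNReal.ofReal (C * l ^ (-(2 / 3) : ℝ))) ∧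
        (∀ t : ℝ, -2 < t → t < 2 / 3 →
          ∫⁻ z in ball (0 : ℂ) 1, ENNReal.ofReal (‖deriv f z‖ ^ t) ≤
            ENNReal.ofReal (C / ((t + 2) * (2 / 3 - t)))))) ∧
    (∃ f ∈ ClassS,
      (∀ l : ℝ, 0 < l → l ≤ 1 → ENNReal.ofReal (π / 4 * l ^ 2) ≤
        volume {z | z ∈ ball (0 : ℂ) 1 ∧ ‖deriv f z‖ < l}) ∧
      (∀ l : ℝ, 1 ≤ l → ENNReal.ofReal (π / 4 * l ^ (-(2 / 3) : ℝ)) ≤
        volume {z | z ∈ ball (0 : ℂ) 1 ∧ l < ‖deriv f z‖})) ∧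
    (∀ t : ℝ, t ≤ -2 → BS t = ((-t - 1 : ℝ) : EReal)) ∧
    (∀ t : ℝ, t < -2 → ∃ C : ℝ, ∀ f ∈ ClassS, ∀ r : ℝ, 0 ≤ r → r < 1 →
      intMean f t r ≤ C * (1 - r) ^ (t + 1)) ∧
    (∃ C : ℝ, ∀ f ∈ ClassS, ∀ r : ℝ, 0 ≤ r → r < 1 →
      intMean f (-2) r ≤ C * (1 - r)⁻¹ * (1 + Real.log (1 / (1 - r)))) := by
  refine ⟨Brn.brennan_of (Brn.blockF_of Brn.blockI Brn.Par6.blockP), ?_, sharp,
    fun t ht => BS_eq ht, fun t ht => ?_, ?_⟩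
  · obtain ⟨C1, hC1, h1⟩ := weak_low
    obtain ⟨C2, hC2, h2⟩ := weak_high
    obtain ⟨C3, hC3, h3⟩ := weak_conf
    obtain ⟨C4, hC4, h4⟩ := strong_S
    obtain ⟨C5, hC5, h5⟩ := strong_conf
    refine ⟨C1 + C2 + C3 + C4 + C5, by positivity, fun W φ hW hφ hb a ha ha0 =>
      ⟨fun l hl => (h3 W φ hW hφ hb a ha ha0 l hl).trans (ENNReal.ofReal_le_ofReal ?_),
        fun s hs1 hs2 => (h5 W φ hW hφ hb a ha ha0 s hs1 hs2).trans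
          (ENNReal.ofReal_le_ofReal ?_)⟩, fun f hf => ⟨fun l hl =>
        ⟨(h1 f hf l hl).trans (ENNReal.ofReal_le_ofReal ?_),
          (h2 f hf l hl).trans (ENNReal.ofReal_le_ofReal ?_)⟩,
        fun t ht1 ht2 => (h4 f hf t ht1 ht2).trans (ENNReal.ofReal_le_ofReal ?_)⟩⟩
    · have : 0 ≤ min (l ^ (-4 : ℝ)) (l ^ (-(4 / 3) : ℝ)) :=
        le_min (Real.rpow_nonneg hl.le _) (Real.rpow_nonneg hl.le _)
      gcongr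
      linarith
    · have h6 : 0 ≤ (s - 4 / 3) * (4 - s) := mul_nonneg (by linarith) (by linarith)
      have h7 : 0 ≤ ‖deriv φ a‖ ^ (s - 2) := Real.rpow_nonneg (norm_nonneg _) _
      gcongr
      linarith
    · gcongr
      linarith
    · have : 0 ≤ l ^ (-(2 / 3) : ℝ) := Real.rpow_nonneg hl.le _
      gcongr
      linarith
    · have h6 : 0 ≤ (t + 2) * (2 / 3 - t) := mul_nonneg (by linarith) (by linarith)
      gcongr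
      linarith
  · obtain ⟨C, _, h⟩ := mean_low ht
    exact ⟨C, h⟩
  · obtain ⟨C, _, h⟩ := mean_crit
    exact ⟨C, h⟩

end Vale.Agent.P142.H838
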