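import Vale.Agent.P142.H838.Conf

/-!
P142, endpoint form of Brennan's conjecture: quantitative integrability and integral means from
the weak type estimates.
-/

open Complex MeasureTheory Metric Set Filter Topology
open scoped Real ComplexConjugate ENNReal

namespace Vale.Agent.P142.H838

noncomputable section

variable {f F : ℂ → ℂ} {t r r₀ : ℝ}

/-- Strong type below the critical exponent. -/
lemma strong_of_weak {Y : ℂ → ℝ} (hY : Measurable Y) (hY0 : ∀ z, 0 ≤ Y z) {α C p : ℝ}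
    (hC : 0 ≤ C) (hw : ∀ l : ℝ, 0 < l → volume ({z | l < Y z} ∩ ball (0 : ℂ) 1) ≤
      ENNReal.ofReal (C * l ^ (-α))) (hp : 0 < p) (hpα : p < α) :
    ∫⁻ z in ball (0 : ℂ) 1, ENNReal.ofReal (Y z ^ p) ≤ ENNReal.ofReal (π + C * p / (α - p)) := by
  have hpi := Real.pi_pos
  have h1 := lintegral_rpow_eq_lintegral_meas_lt_mul (μ := volume.restrict (ball (0 : ℂ) 1))
    (f := Y) (Eventually.of_forall hY0) hY.aemeasurable hp
  rw [h1]
  have hvol : volume (ball (0 : ℂ) 1) = ENNReal.ofReal π := by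
    rw [Complex.volume_ball, ENNReal.ofReal_one, one_pow, one_mul, ENNReal.ofReal,
      Real.toNNReal_of_nonneg hpi.le]
    rfl
  have hmA : ∀ s : ℝ, MeasurableSet {z : ℂ | s < Y z} := fun s =>
    measurableSet_lt measurable_const hY
  have e1 : Ioi (0 : ℝ) = Ioc 0 1 ∪ Ioi 1 := (Ioc_union_Ioi_eq_Ioi zero_le_one).symm
  have hA : ∫⁻ s in Ioc (0 : ℝ) 1, volume.restrict (ball (0 : ℂ) 1) {z | s < Y z} *
      ENNReal.ofReal (s ^ (p - 1)) ≤ ENNReal.ofReal (π / p) := by
    calc _ ≤ ∫⁻ s in Ioc (0 : ℝ) 1, ENNReal.ofReal π * ENNReal.ofReal (s ^ (p - 1)) := by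
          apply setLIntegral_mono' measurableSet_Ioc
          intro s _
          refine mul_le_mul_left ?_ _
          rw [Measure.restrict_apply (hmA s), ← hvol]
          exact measure_mono inter_subset_right
      _ = ENNReal.ofReal (π / p) := by
          have h3 : IntervalIntegrable (fun x : ℝ => x ^ (p - 1)) volume 0 1 :=
            intervalIntegral.intervalIntegrable_rpow' (by linarith)
          rw [lintegral_const_mul' _ _ ENNReal.ofReal_ne_top,
            ← ofReal_integral_eq_lintegral_ofReal h3.1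
              ((ae_restrict_iff' measurableSet_Ioc).mpr
              (Eventually.of_forall fun r hr => Real.rpow_nonneg hr.1.le _)),
            ← intervalIntegral.integral_of_le zero_le_one,
            integral_rpow (Or.inl (by linarith)), sub_add_cancel, Real.zero_rpow hp.ne',
            Real.one_rpow, sub_zero, ← ENNReal.ofReal_mul hpi.le]
          congr 1
          ring
  have hB : ∫⁻ s in Ioi (1 : ℝ), volume.restrict (ball (0 : ℂ) 1) {z | s < Y z} *
      ENNReal.ofReal (s ^ (p - 1)) ≤ ENNReal.ofReal (C / (α - p)) := by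
    have hap : 0 < α - p := by linarith
    calc _ ≤ ∫⁻ s in Ioi (1 : ℝ), ENNReal.ofReal C * ENNReal.ofReal (s ^ (-α + (p - 1))) := by
          apply setLIntegral_mono' measurableSet_Ioi
          intro s hs
          have hs1 : (1 : ℝ) < s := hs
          have hs0 : 0 < s := by linarith
          rw [Measure.restrict_apply (hmA s)]
          refine (mul_le_mul_left (hw s hs0) _).trans (le_of_eq ?_)
          have : 0 ≤ s ^ (-α) := Real.rpow_nonneg hs0.le _
          rw [← ENNReal.ofReal_mul (by positivity), ← ENNReal.ofReal_mul hC, mul_assoc,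
            ← Real.rpow_add hs0]
      _ = ENNReal.ofReal (C / (α - p)) := by
          have h3 : IntegrableOn (fun s : ℝ => s ^ (-α + (p - 1))) (Ioi 1) :=
            integrableOn_Ioi_rpow_of_lt (by linarith) one_pos
          rw [lintegral_const_mul' _ _ ENNReal.ofReal_ne_top,
            ← ofReal_integral_eq_lintegral_ofReal h3
              ((ae_restrict_iff' measurableSet_Ioi).mpr
              (Eventually.of_forall fun r hr => Real.rpow_nonneg (by
                have : (1 : ℝ) < r := hr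
                linarith) _)),
            integral_Ioi_rpow_of_lt (by linarith) one_pos, Real.one_rpow,
            ← ENNReal.ofReal_mul hC]
          congr 1
          have : -α + (p - 1) + 1 = -(α - p) := by ring
          rw [this]
          field_simp
  have hap : 0 < α - p := by linarith
  rw [e1, lintegral_union measurableSet_Ioi (Ioc_disjoint_Ioi le_rfl)]
  refine (mul_le_mul_right (add_le_add hA hB) _).trans (le_of_eq ?_)
  rw [← ENNReal.ofReal_add (by positivity) (by positivity), ← ENNReal.ofReal_mul hp.le]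
  congr 1
  field_simp

/-- `1 / |F'|` -/
lemma weak_inv {C : ℝ} (hF : F ∈ ClassS)
    (hw : ∀ l : ℝ, 0 < l → volume {z | z ∈ ball (0 : ℂ) 1 ∧ ‖deriv F z‖ < l} ≤
      ENNReal.ofReal (C * l ^ 2)) {l : ℝ} (hl : 0 < l) :
    volume ({z | l < ‖deriv F z‖⁻¹} ∩ ball (0 : ℂ) 1) ≤ ENNReal.ofReal (C * l ^ (-2 : ℝ)) := by
  have h1 := hw l⁻¹ (inv_pos.mpr hl)
  have e : l ^ (-2 : ℝ) = l⁻¹ ^ 2 := by
    rw [Real.rpow_neg hl.le, Real.rpow_two, inv_pow]
  rw [e]
  refine le_trans (measure_mono ?_) h1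
  rintro z ⟨a, b⟩
  have hd : 0 < ‖deriv F z‖ := norm_pos_iff.mpr (univ_deriv_ne_zero (univ_of_classS hF) b)
  refine ⟨b, ?_⟩
  have a' : l < ‖deriv F z‖⁻¹ := a
  rwa [lt_inv_comm₀ hl hd] at a'

/-- **Quantitative Brennan on the class `S`**: `∫ |F'|^t ≤ C / ((t + 2) (2/3 - t))`. -/
theorem strong_S : ∃ C : ℝ, 0 < C ∧ ∀ F ∈ ClassS, ∀ t : ℝ, -2 < t → t < 2 / 3 →
    ∫⁻ z in ball (0 : ℂ) 1, ENNReal.ofReal (‖deriv F z‖ ^ t) ≤
      ENNReal.ofReal (C / ((t + 2) * (2 / 3 - t))) := by
  obtain ⟨C1, hC1, h1⟩ := weak_low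
  obtain ⟨C2, hC2, h2⟩ := weak_high
  have hpi := Real.pi_pos
  refine ⟨2 * π + 6 * C1 + 6 * C2, by positivity, fun F hF t ht1 ht2 => ?_⟩
  have hm : Measurable fun z => ‖deriv F z‖ := (measurable_deriv F).norm
  have hp1 : 0 < t + 2 := by linarith
  have hp2 : 0 < 2 / 3 - t := by linarith
  have hpp : 0 < (t + 2) * (2 / 3 - t) := by positivity
  rcases lt_trichotomy t 0 with h | h | h
  · have h3 := strong_of_weak (Y := fun z => ‖deriv F z‖⁻¹) hm.inv (fun z => by positivity)
      hC1.le (fun l hl => weak_inv hF (h1 F hF) hl) (p := -t) (by linarith) (by linarith)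
    have e : ∀ z : ℂ, (‖deriv F z‖⁻¹) ^ (-t) = ‖deriv F z‖ ^ t := fun z => by
      rw [Real.inv_rpow (norm_nonneg _), Real.rpow_neg (norm_nonneg _), inv_inv]
    simp only [e] at h3
    refine h3.trans (ENNReal.ofReal_le_ofReal ?_)
    rw [le_div_iff₀ hpp]
    have e2 : (π + C1 * -t / (2 - -t)) * ((t + 2) * (2 / 3 - t)) =
        π * ((t + 2) * (2 / 3 - t)) + C1 * (-t * (2 / 3 - t)) := by
      have : 2 - -t = t + 2 := by ring
      rw [this]
      field_simp
    rw [e2]
    have b1 : (t + 2) * (2 / 3 - t) ≤ 2 := by nlinarith [sq_nonneg (t + 2 / 3)]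
    have b2 : -t * (2 / 3 - t) ≤ 6 := by nlinarith
    nlinarith
  · subst h
    simp only [Real.rpow_zero, ENNReal.ofReal_one, lintegral_const, one_mul,
      Measure.restrict_apply MeasurableSet.univ, univ_inter]
    have hvol : volume (ball (0 : ℂ) 1) = ENNReal.ofReal π := by
      rw [Complex.volume_ball, ENNReal.ofReal_one, one_pow, one_mul, ENNReal.ofReal,
        Real.toNNReal_of_nonneg hpi.le]
      rfl
    rw [hvol]
    apply ENNReal.ofReal_le_ofReal
    rw [le_div_iff₀ (by norm_num)]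
    nlinarith
  · have h3 := strong_of_weak (Y := fun z => ‖deriv F z‖) hm (fun z => norm_nonneg _)
      hC2.le (α := 2 / 3) (fun l hl => by
        refine le_trans (measure_mono ?_) (h2 F hF l hl)
        rintro z ⟨a, b⟩
        exact ⟨b, a⟩) h ht2
    refine h3.trans (ENNReal.ofReal_le_ofReal ?_)
    rw [le_div_iff₀ hpp]
    have e2 : ∀ q : ℝ, 0 < q → (π + C2 * t / q) * ((t + 2) * q) =
        π * ((t + 2) * q) + C2 * (t * (t + 2)) := by
      intro q hq
      field_simp
    rw [e2 _ hp2]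
    have b1 : (t + 2) * (2 / 3 - t) ≤ 2 := by nlinarith [sq_nonneg (t + 2 / 3)]
    have b2 : t * (t + 2) ≤ 6 := by nlinarith
    nlinarith

/-- **Quantitative Brennan for conformal maps**:
`∫_W |φ'|^s ≤ C |φ'(w₀)|^(s-2) / ((s - 4/3) (4 - s))`, `φ(w₀) = 0`. -/
theorem strong_conf : ∃ C : ℝ, 0 < C ∧
    ∀ (W : Set ℂ) (φ : ℂ → ℂ), IsOpen W → DifferentiableOn ℂ φ W → BijOn φ W (ball 0 1) →
    ∀ w₀ ∈ W, φ w₀ = 0 → ∀ s : ℝ, 4 / 3 < s → s < 4 →
    ∫⁻ w in W, ENNReal.ofReal (‖deriv φ w‖ ^ s) ≤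
      ENNReal.ofReal (C * ‖deriv φ w₀‖ ^ (s - 2) / ((s - 4 / 3) * (4 - s))) := by
  obtain ⟨C, hC, h⟩ := strong_S
  refine ⟨C, hC, fun W φ hW hφ hbij w₀ hw₀ hφ₀ s hs1 hs2 => ?_⟩
  obtain ⟨F, hFS, hF⟩ := exists_inverse' hW hφ hbij hw₀ hφ₀
  have hFU := univ_of_classS hFS
  have hne0 : deriv φ w₀ ≠ 0 := injOn_deriv_ne_zero hW hφ hbij.injOn hw₀
  set m : ℝ := ‖deriv φ w₀‖ with hm
  have hm0 : 0 < m := norm_pos_iff.mpr hne0
  have h1 := hF (fun x => ENNReal.ofReal (x ^ s))
  rw [h1]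
  have e1 : ∫⁻ z in ball (0 : ℂ) 1, ENNReal.ofReal (‖deriv F z‖ ^ 2) *
      ENNReal.ofReal ((m * ‖deriv F z‖⁻¹) ^ s) =
      ENNReal.ofReal (m ^ s) * ∫⁻ z in ball (0 : ℂ) 1, ENNReal.ofReal (‖deriv F z‖ ^ (2 - s)) := by
    rw [← lintegral_const_mul' _ _ ENNReal.ofReal_ne_top]
    apply setLIntegral_congr_fun measurableSet_ball
    intro z hz
    have hd : 0 < ‖deriv F z‖ := norm_pos_iff.mpr (univ_deriv_ne_zero hFU hz)
    simp only
    rw [← ENNReal.ofReal_mul (by positivity), ← ENNReal.ofReal_mul (by positivity)]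
    congr 1
    rw [Real.mul_rpow hm0.le (by positivity), Real.inv_rpow hd.le, Real.rpow_sub hd,
      Real.rpow_two]
    ring
  rw [e1, ← mul_assoc, ← ENNReal.ofReal_mul (by positivity)]
  refine (mul_le_mul_right (h F hFS (2 - s) (by linarith) (by linarith)) _).trans
    (le_of_eq ?_)
  rw [← ENNReal.ofReal_mul (by positivity)]
  congr 1
  rw [Real.rpow_sub hm0, Real.rpow_two]
  have e2 : (2 - s + 2) * (2 / 3 - (2 - s)) = (s - 4 / 3) * (4 - s) := by ring
  rw [e2]
  ring

end

end Vale.Agent.P142.H838
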