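import Vale.Agent.P142.H838.Means

/-!
P142, endpoint form of Brennan's conjecture: uniform bounds for the integral means of exponent
`t ≤ -2`.
-/

open Complex MeasureTheory Metric Set Filter Topology
open scoped Real ComplexConjugate ENNReal

namespace Vale.Agent.P142.H838

open Vale.Agent.P142.Brn.G1s (MM_mono)

noncomputable section

variable {f F : ℂ → ℂ} {t r r₀ : ℝ}

lemma annulus_polar2 (hf : Univ f) (t : ℝ) (h0 : 0 ≤ r₀) {r₂ : ℝ} (h2 : r₂ ≤ 1) :
    ∫⁻ z in {z : ℂ | ‖z‖ ∈ Ioo r₀ r₂}, ENNReal.ofReal (‖deriv f z‖ ^ t) =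
      ∫⁻ r in Ioo r₀ r₂, ENNReal.ofReal (r * MM f t r) := by
  have hmA : MeasurableSet {z : ℂ | ‖z‖ ∈ Ioo r₀ r₂} := measurable_norm measurableSet_Ioo
  have hm : Measurable (fun z => ENNReal.ofReal (‖deriv f z‖ ^ t)) :=
    ENNReal.measurable_ofReal.comp ((measurable_deriv f).norm.pow_const _)
  have hAb : {z : ℂ | ‖z‖ ∈ Ioo r₀ r₂} ∩ ball (0 : ℂ) 1 = {z : ℂ | ‖z‖ ∈ Ioo r₀ r₂} := by
    apply inter_eq_left.mpr
    intro z hz
    rw [mem_ball_zero_iff]
    exact lt_of_lt_of_le hz.2 h2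
  have e1 : ∫⁻ z in {z : ℂ | ‖z‖ ∈ Ioo r₀ r₂}, ENNReal.ofReal (‖deriv f z‖ ^ t) =
      ∫⁻ z in ball (0 : ℂ) 1, ({z : ℂ | ‖z‖ ∈ Ioo r₀ r₂}).indicator
        (fun z => ENNReal.ofReal (‖deriv f z‖ ^ t)) z := by
    rw [lintegral_indicator hmA, Measure.restrict_restrict hmA, hAb]
  rw [e1, FF.lintegral_ball_polar (hm.indicator hmA)]
  have e2 : ∀ r ∈ Ioo (0 : ℝ) 1, ENNReal.ofReal r * ∫⁻ θ in Ioo (-π) π,
      ({z : ℂ | ‖z‖ ∈ Ioo r₀ r₂}).indicator (fun z => ENNReal.ofReal (‖deriv f z‖ ^ t))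
        (circleMap 0 r θ) =
      (Ioo r₀ r₂).indicator (fun r => ENNReal.ofReal (r * MM f t r)) r := by
    intro r hr
    have hn : ∀ θ : ℝ, ‖circleMap 0 r θ‖ = r := fun θ => by
      rw [norm_circleMap_zero, abs_of_pos hr.1]
    by_cases h : r ∈ Ioo r₀ r₂
    · rw [indicator_of_mem h, ENNReal.ofReal_mul hr.1.le, ← MM_lintegral hf t hr.1.le hr.2]
      congr 1
      refine lintegral_congr fun θ => ?_
      rw [indicator_of_mem]
      change ‖circleMap 0 r θ‖ ∈ Ioo r₀ r₂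
      rw [hn]
      exact h
    · rw [indicator_of_notMem h]
      have e3 : ∀ θ : ℝ, ({z : ℂ | ‖z‖ ∈ Ioo r₀ r₂}).indicator
          (fun z => ENNReal.ofReal (‖deriv f z‖ ^ t)) (circleMap 0 r θ) = 0 := by
        intro θ
        rw [indicator_of_notMem]
        change ¬ ‖circleMap 0 r θ‖ ∈ Ioo r₀ r₂
        rw [hn]
        exact h
      simp only [e3, lintegral_zero, mul_zero]
  rw [setLIntegral_congr_fun measurableSet_Ioo e2, lintegral_indicator measurableSet_Ioo,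
    Measure.restrict_restrict measurableSet_Ioo]
  congr 2
  apply inter_eq_left.mpr
  rintro r ⟨a, b⟩
  exact ⟨by linarith, by linarith⟩

/-- The circle mean is bounded by the area integral over an annulus. -/
lemma mean_le_annulus (hF : Univ F) (p : ℝ) (hr0 : 0 ≤ r) (hr1 : r < 1) :
    ENNReal.ofReal ((1 - r) / 8 * MM F (-p) r) ≤
      ∫⁻ z in {z : ℂ | ‖z‖ ∈ Ioo (max r (1 / 2)) ((1 + max r (1 / 2)) / 2)},
        ENNReal.ofReal (‖deriv F z‖ ^ (-p)) := by
  set r1 : ℝ := max r (1 / 2) with hr1d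
  have a1 : r ≤ r1 := le_max_left _ _
  have a2 : 1 / 2 ≤ r1 := le_max_right _ _
  have a3 : r1 < 1 := max_lt hr1 (by norm_num)
  have a4 : (1 - r) / 2 ≤ 1 - r1 := by
    rcases max_choice r (1 / 2) with h | h
    · rw [hr1d, h]; linarith
    · rw [hr1d, h]; linarith
  have hM0 := MM_pos hF (-p) hr0 hr1
  rw [annulus_polar2 hF _ (by linarith) (by linarith)]
  calc ENNReal.ofReal ((1 - r) / 8 * MM F (-p) r)
      ≤ ENNReal.ofReal (1 / 2 * MM F (-p) r * ((1 + r1) / 2 - r1)) := by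
        apply ENNReal.ofReal_le_ofReal
        nlinarith
    _ = ∫⁻ _ in Ioo r1 ((1 + r1) / 2), ENNReal.ofReal (1 / 2 * MM F (-p) r) := by
        rw [setLIntegral_const, Real.volume_Ioo, ← ENNReal.ofReal_mul (by positivity)]
    _ ≤ ∫⁻ ρ in Ioo r1 ((1 + r1) / 2), ENNReal.ofReal (ρ * MM F (-p) ρ) := by
        apply setLIntegral_mono' measurableSet_Ioo
        intro ρ hρ
        apply ENNReal.ofReal_le_ofReal
        have h1 := MM_mono hF p hr0 (by linarith [hρ.1] : r ≤ ρ) (by linarith [hρ.2])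
        have h2 : 1 / 2 ≤ ρ := by linarith [hρ.1]
        nlinarith

/-- Truncated moments above the critical exponent. -/
lemma trunc {Y : ℂ → ℝ} (hY : Measurable Y) (hY0 : ∀ z, 0 ≤ Y z) {C p Λ : ℝ}
    (hC : 0 ≤ C) (hw : ∀ l : ℝ, 0 < l → volume ({z | l < Y z} ∩ ball (0 : ℂ) 1) ≤
      ENNReal.ofReal (C * l ^ (-2 : ℝ))) (hp : 2 < p) (hΛ : 0 < Λ) {A : Set ℂ}
    (hAb : A ⊆ ball 0 1) (hAΛ : ∀ z ∈ A, Y z ≤ Λ) :
    ∫⁻ z in A, ENNReal.ofReal (Y z ^ p) ≤ ENNReal.ofReal (C * p / (p - 2) * Λ ^ (p - 2)) := by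
  have hp0 : 0 < p := by linarith
  have hp2 : 0 < p - 2 := by linarith
  have h1 := lintegral_rpow_eq_lintegral_meas_lt_mul (μ := volume.restrict A)
    (f := Y) (Eventually.of_forall hY0) hY.aemeasurable hp0
  rw [h1]
  have hmA : ∀ s : ℝ, MeasurableSet {z : ℂ | s < Y z} := fun s =>
    measurableSet_lt measurable_const hY
  have h2 : ∫⁻ s in Ioi (0 : ℝ), volume.restrict A {z | s < Y z} *
      ENNReal.ofReal (s ^ (p - 1)) ≤
      ∫⁻ s in Ioo 0 Λ, ENNReal.ofReal C * ENNReal.ofReal (s ^ (p - 3)) := by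
    have e2 : ∫⁻ s in Ioo 0 Λ, ENNReal.ofReal C * ENNReal.ofReal (s ^ (p - 3)) =
        ∫⁻ s in Ioi (0 : ℝ), (Iio Λ).indicator
          (fun s => ENNReal.ofReal C * ENNReal.ofReal (s ^ (p - 3))) s := by
      rw [lintegral_indicator measurableSet_Iio, Measure.restrict_restrict measurableSet_Iio,
        Iio_inter_Ioi]
    rw [e2]
    apply setLIntegral_mono' measurableSet_Ioi
    intro s hs
    have hs0 : (0 : ℝ) < s := hs
    rw [Measure.restrict_apply (hmA s)]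
    by_cases h : s < Λ
    · rw [indicator_of_mem (show s ∈ Iio Λ from h)]
      have h3 : volume ({z | s < Y z} ∩ A) ≤ ENNReal.ofReal (C * s ^ (-2 : ℝ)) :=
        le_trans (measure_mono (inter_subset_inter_right _ hAb)) (hw s hs0)
      refine (mul_le_mul_left h3 _).trans (le_of_eq ?_)
      have : 0 ≤ s ^ (-2 : ℝ) := Real.rpow_nonneg hs0.le _
      rw [← ENNReal.ofReal_mul (by positivity), ← ENNReal.ofReal_mul hC]
      congr 1
      rw [mul_assoc, ← Real.rpow_add hs0]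
      congr 2
      ring
    · have h3 : {z | s < Y z} ∩ A = ∅ := by
        ext z
        simp only [mem_inter_iff, mem_ofPred_eq, mem_empty_iff_false, iff_false]
        rintro ⟨a, b⟩
        have := hAΛ z b
        linarith
      rw [h3, measure_empty, zero_mul]
      exact bot_le
  refine (mul_le_mul_right h2 _).trans (le_of_eq ?_)
  have h3 : IntervalIntegrable (fun x : ℝ => x ^ (p - 3)) volume 0 Λ :=
    intervalIntegral.intervalIntegrable_rpow' (by linarith)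
  have h4 : ∫⁻ s in Ioo 0 Λ, ENNReal.ofReal (s ^ (p - 3)) =
      ENNReal.ofReal (Λ ^ (p - 2) / (p - 2)) := by
    rw [← ofReal_integral_eq_lintegral_ofReal (h3.1.mono_set Ioo_subset_Ioc_self)
      ((ae_restrict_iff' measurableSet_Ioo).mpr
      (Eventually.of_forall fun r hr => Real.rpow_nonneg hr.1.le _))]
    congr 1
    rw [← integral_Ioc_eq_integral_Ioo, ← intervalIntegral.integral_of_le hΛ.le,
      integral_rpow (Or.inl (by linarith)), Real.zero_rpow (by linarith), sub_zero]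
    congr 1
    · congr 1
      ring
    · ring
  rw [lintegral_const_mul' _ _ ENNReal.ofReal_ne_top, h4]
  have h5 : 0 ≤ Λ ^ (p - 2) := Real.rpow_nonneg hΛ.le _
  rw [← ENNReal.ofReal_mul hC, ← ENNReal.ofReal_mul hp0.le]
  congr 1
  field_simp

lemma annulus_le (hF : F ∈ ClassS) (hr0 : 0 ≤ r) (hr1 : r < 1) {z : ℂ}
    (hz : ‖z‖ ∈ Ioo (max r (1 / 2)) ((1 + max r (1 / 2)) / 2)) :
    ‖deriv F z‖⁻¹ ≤ 128 / (1 - r) := by
  have a3 : max r (1 / 2) < 1 := max_lt hr1 (by norm_num)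
  have a4 : (1 - r) / 2 ≤ 1 - max r (1 / 2) := by
    rcases max_choice r (1 / 2) with h | h
    · rw [h]; linarith
    · rw [h]; linarith
  have hzb : z ∈ ball (0 : ℂ) 1 := by
    rw [mem_ball_zero_iff]
    linarith [hz.2]
  have h1 := deriv_ge hF hzb
  have h2 : (1 - r) / 128 ≤ ‖deriv F z‖ := by linarith [hz.2]
  have h3 : 0 < (1 - r) / 128 := by linarith
  calc ‖deriv F z‖⁻¹ ≤ ((1 - r) / 128)⁻¹ := inv_anti₀ h3 h2
    _ = 128 / (1 - r) := by rw [inv_div]

/-- **Integral means of exponent `t < -2`**, uniform on the class `S`. -/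
theorem mean_low (ht : t < -2) : ∃ C : ℝ, 0 < C ∧ ∀ F ∈ ClassS, ∀ r : ℝ, 0 ≤ r → r < 1 →
    intMean F t r ≤ C * (1 - r) ^ (t + 1) := by
  obtain ⟨C1, hC1, h1⟩ := weak_low
  have hpi := Real.pi_pos
  set p : ℝ := -t with hp
  have hp2 : 2 < p := by linarith
  have hp0 : 0 < p - 2 := by linarith
  refine ⟨(2 * π)⁻¹ * (8 * (C1 * p / (p - 2) * 128 ^ (p - 2))), by positivity,
    fun F hF r hr0 hr1 => ?_⟩
  have hFU := univ_of_classS hF
  have hq : 0 < 1 - r := by linarith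
  have h2 := mean_le_annulus hFU p hr0 hr1
  have e : ∀ z : ℂ, ‖deriv F z‖ ^ (-p) = (‖deriv F z‖⁻¹) ^ p := fun z => by
    rw [Real.inv_rpow (norm_nonneg _), Real.rpow_neg (norm_nonneg _)]
  simp only [e] at h2
  have h3 := trunc (Y := fun z => ‖deriv F z‖⁻¹) (measurable_deriv F).norm.inv
    (fun z => by positivity) hC1.le (fun l hl => weak_inv hF (h1 F hF) hl) hp2
    (Λ := 128 / (1 - r)) (by positivity)
    (A := {z : ℂ | ‖z‖ ∈ Ioo (max r (1 / 2)) ((1 + max r (1 / 2)) / 2)})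
    (fun z hz => by
      rw [mem_ball_zero_iff]
      have a3 : max r (1 / 2) < 1 := max_lt hr1 (by norm_num)
      linarith [hz.2])
    (fun z hz => annulus_le hF hr0 hr1 hz)
  have h4 := h2.trans h3
  have hM0 := MM_pos hFU (-p) hr0 hr1
  rw [ENNReal.ofReal_le_ofReal_iff (by positivity)] at h4
  have e2 : (128 / (1 - r)) ^ (p - 2) = 128 ^ (p - 2) * (1 - r) ^ (2 - p) := by
    rw [Real.div_rpow (by norm_num) hq.le, show (2 : ℝ) - p = -(p - 2) by ring,
      Real.rpow_neg hq.le, div_eq_mul_inv]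
  rw [e2] at h4
  have e3 : (1 - r) ^ (t + 1) = (1 - r) ^ (2 - p) * (1 - r)⁻¹ := by
    rw [← Real.rpow_neg_one, ← Real.rpow_add hq]
    congr 1
    rw [hp]
    ring
  have e4 : intMean F t r = (2 * π)⁻¹ * MM F (-p) r := by
    unfold intMean MM
    rw [hp, neg_neg]
  rw [e4, e3, mul_assoc]
  apply mul_le_mul_of_nonneg_left _ (by positivity)
  have h5 : MM F (-p) r = ((1 - r) / 8 * MM F (-p) r) * (8 * (1 - r)⁻¹) := by
    field_simp
  rw [h5]
  calc (1 - r) / 8 * MM F (-p) r * (8 * (1 - r)⁻¹)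
      ≤ (C1 * p / (p - 2) * (128 ^ (p - 2) * (1 - r) ^ (2 - p))) * (8 * (1 - r)⁻¹) := by
        gcongr
    _ = _ := by ring

/-- **Integral means of exponent `-2`**, uniform on the class `S`. -/
theorem mean_crit : ∃ C : ℝ, 0 < C ∧ ∀ F ∈ ClassS, ∀ r : ℝ, 0 ≤ r → r < 1 →
    intMean F (-2) r ≤ C * (1 - r)⁻¹ * (1 + Real.log (1 / (1 - r))) := by
  obtain ⟨C1, hC1, h1⟩ := weak_low
  have hpi := Real.pi_pos
  refine ⟨(2 * π)⁻¹ * (8 * (3 * ((π + 2 * C1) * 6))), by positivity, fun F hF r hr0 hr1 => ?_⟩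
  have hFU := univ_of_classS hF
  have hq : 0 < 1 - r := by linarith
  set Λ : ℝ := 128 / (1 - r) with hΛ
  have hΛ1 : 128 ≤ Λ := by
    rw [hΛ, le_div_iff₀ hq]
    linarith
  have hΛ0 : 0 < Λ := by linarith
  set L : ℝ := Real.log Λ with hL
  have hL1 : 1 < L := by
    rw [hL, Real.lt_log_iff_exp_lt hΛ0]
    have := Real.exp_one_lt_d9
    linarith
  have hL0 : 0 < L := by linarith
  have h2 := mean_le_annulus hFU 2 hr0 hr1
  have hε : 0 < 1 / L := by positivity
  have hε1 : 1 / L < 1 := by rw [div_lt_one hL0]; exact hL1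
  have hmA : MeasurableSet {z : ℂ | ‖z‖ ∈ Ioo (max r (1 / 2)) ((1 + max r (1 / 2)) / 2)} :=
    measurable_norm measurableSet_Ioo
  have hAb : {z : ℂ | ‖z‖ ∈ Ioo (max r (1 / 2)) ((1 + max r (1 / 2)) / 2)} ⊆ ball 0 1 := by
    intro z hz
    rw [mem_ball_zero_iff]
    have a3 : max r (1 / 2) < 1 := max_lt hr1 (by norm_num)
    linarith [hz.2]
  have h3 : ∫⁻ z in {z : ℂ | ‖z‖ ∈ Ioo (max r (1 / 2)) ((1 + max r (1 / 2)) / 2)},
        ENNReal.ofReal (‖deriv F z‖ ^ (-2 : ℝ)) ≤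
      ENNReal.ofReal (Real.exp 1) * ENNReal.ofReal (π + C1 * (2 - 1 / L) / (2 - (2 - 1 / L))) := by
    calc _ ≤ ∫⁻ z in {z : ℂ | ‖z‖ ∈ Ioo (max r (1 / 2)) ((1 + max r (1 / 2)) / 2)},
          ENNReal.ofReal (Real.exp 1) * ENNReal.ofReal ((‖deriv F z‖⁻¹) ^ (2 - 1 / L)) := by
          apply setLIntegral_mono' hmA
          intro z hz
          rw [← ENNReal.ofReal_mul (Real.exp_pos 1).le]
          apply ENNReal.ofReal_le_ofReal
          have hd : 0 < ‖deriv F z‖ := norm_pos_iff.mpr (univ_deriv_ne_zero hFU (hAb hz))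
          have hy := annulus_le hF hr0 hr1 hz
          have e1 : ‖deriv F z‖ ^ (-2 : ℝ) = (‖deriv F z‖⁻¹) ^ (1 / L) *
              (‖deriv F z‖⁻¹) ^ (2 - 1 / L) := by
            rw [← Real.rpow_add (by positivity), Real.inv_rpow hd.le, Real.rpow_neg hd.le]
            congr 2
            ring
          rw [e1]
          apply mul_le_mul_of_nonneg_right _ (by positivity)
          calc (‖deriv F z‖⁻¹) ^ (1 / L) ≤ Λ ^ (1 / L) :=
                Real.rpow_le_rpow (by positivity) hy hε.le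
            _ = Real.exp 1 := by
                rw [Real.rpow_def_of_pos hΛ0, ← hL, mul_one_div_cancel hL0.ne']
      _ = ENNReal.ofReal (Real.exp 1) *
          ∫⁻ z in {z : ℂ | ‖z‖ ∈ Ioo (max r (1 / 2)) ((1 + max r (1 / 2)) / 2)},
            ENNReal.ofReal ((‖deriv F z‖⁻¹) ^ (2 - 1 / L)) :=
          lintegral_const_mul' _ _ ENNReal.ofReal_ne_top
      _ ≤ _ := by
          refine mul_le_mul_right ((lintegral_mono_set hAb).trans ?_) _
          exact strong_of_weak (Y := fun z => ‖deriv F z‖⁻¹) (measurable_deriv F).norm.inv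
            (fun z => by positivity) hC1.le (fun l hl => weak_inv hF (h1 F hF) hl)
            (by linarith) (by linarith)
  have h4 := h2.trans h3
  rw [← ENNReal.ofReal_mul (Real.exp_pos 1).le] at h4
  have e5 : C1 * (2 - 1 / L) / (2 - (2 - 1 / L)) = C1 * (2 * L - 1) := by
    rw [show (2 : ℝ) - (2 - 1 / L) = 1 / L by ring]
    field_simp
  rw [e5] at h4
  have hpos : 0 ≤ π + C1 * (2 * L - 1) := by
    have : 0 ≤ C1 * (2 * L - 1) := mul_nonneg hC1.le (by linarith)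
    linarith
  have hexp := Real.exp_pos 1
  rw [ENNReal.ofReal_le_ofReal_iff (by positivity)] at h4
  have hlog0 : 0 ≤ Real.log (1 / (1 - r)) := by
    apply Real.log_nonneg
    rw [le_div_iff₀ hq]
    linarith
  have hL2 : L ≤ 6 * (1 + Real.log (1 / (1 - r))) := by
    have e6 : L = Real.log 128 + Real.log (1 / (1 - r)) := by
      rw [hL, ← Real.log_mul (by norm_num) (by positivity), hΛ]
      congr 1
      ring
    have e7 : Real.log 128 = 7 * Real.log 2 := by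
      rw [show (128 : ℝ) = 2 ^ 7 by norm_num, Real.log_pow]
      norm_num
    have e8 := Real.log_two_lt_d9
    rw [e6, e7]
    linarith
  have h6 : Real.exp 1 * (π + C1 * (2 * L - 1)) ≤ 3 * ((π + 2 * C1) * (6 * (1 + Real.log (1 / (1 - r))))) := by
    have he := Real.exp_one_lt_d9
    have b1 : π + C1 * (2 * L - 1) ≤ (π + 2 * C1) * L := by nlinarith
    have b2 : (π + 2 * C1) * L ≤ (π + 2 * C1) * (6 * (1 + Real.log (1 / (1 - r)))) := by gcongr
    calc Real.exp 1 * (π + C1 * (2 * L - 1)) ≤ 3 * (π + C1 * (2 * L - 1)) := by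
          apply mul_le_mul_of_nonneg_right _ hpos
          linarith
      _ ≤ _ := by linarith
  have e4 : intMean F (-2) r = (2 * π)⁻¹ * MM F (-2) r := rfl
  have h5 : MM F (-2) r = ((1 - r) / 8 * MM F (-2) r) * (8 * (1 - r)⁻¹) := by
    field_simp
  rw [e4, mul_assoc, mul_assoc]
  apply mul_le_mul_of_nonneg_left _ (by positivity)
  rw [h5]
  calc (1 - r) / 8 * MM F (-2) r * (8 * (1 - r)⁻¹)
      ≤ (3 * ((π + 2 * C1) * (6 * (1 + Real.log (1 / (1 - r)))))) * (8 * (1 - r)⁻¹) := by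
        apply mul_le_mul_of_nonneg_right _ (by positivity)
        exact h4.trans h6
    _ = _ := by ring

end

end Vale.Agent.P142.H838
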