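import Vale.Agent.P142.H838.Lower

/-!
P142, endpoint form of Brennan's conjecture: the classical means bound for positive exponents with
a constant that is uniform on the class `S` (the argument of `pos_mean` of the closure).
-/

open Complex MeasureTheory Metric Set Filter Topology intervalIntegral
open scoped Real ComplexConjugate ENNReal

namespace Vale.Agent.P142.H838

noncomputable section

variable {f k h : ℂ → ℂ} {z : ℂ} {t r : ℝ}

/-- Uniform coefficient bound for `h = k ^ (t / 2)`. -/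
theorem coef_bound' (ht : 0 < t) : ∃ B : ℝ, 0 ≤ B ∧ ∀ k h : ℂ → ℂ, Univ k →
    (∀ z ∈ ball (0 : ℂ) 1, k z ≠ 0) → ‖k 0‖ ≤ 2 → DifferentiableOn ℂ h (ball 0 1) →
    (∀ z ∈ ball (0 : ℂ) 1,
      ‖deriv h z‖ ^ 2 = (t / 2) ^ 2 * (‖deriv k z‖ ^ 2 * ‖k z‖ ^ (t - 2))) →
    ∀ ρ ∈ Ioo (0 : ℝ) 1, ∀ N : ℕ,
      ∑ n ∈ Finset.range N, ((n : ℝ) + 1) * ‖tc h (n + 1)‖ ^ 2 * ρ ^ (2 * (n + 1)) ≤
        B * (1 - ρ) ^ (-(2 * t)) := by
  set A : ℝ≥0∞ := ∫⁻ w in ball (0 : ℂ) 1, ENNReal.ofReal (‖w‖ ^ (t - 2)) with hA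
  have hAt : A ≠ ⊤ := (lintegral_pow_lt_top ht).ne
  have h00 : (0 : ℂ) ∈ ball (0 : ℂ) 1 := mem_ball_self one_pos
  refine ⟨π⁻¹ * ((t / 2) ^ 2 * A.toReal) * (4 * 2) ^ t, by (clear * - ht; positivity), ?_⟩
  intro k h hk hne hk2 hh hd ρ hρ N
  have hk0 : 0 < ‖k 0‖ := norm_pos_iff.mpr (hne 0 h00)
  have hρ1 : 0 < 1 - ρ := by linarith [hρ.2]
  set M : ℝ := ‖k 0‖ * (4 * (1 - ρ) ^ (-2 : ℝ)) with hM
  have hMp : 0 < M := by
    have := Real.rpow_pos_of_pos hρ1 (-2 : ℝ)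
    (clear * - hk0 hρ1; positivity)
  have hmem : ∀ z ∈ ball (0 : ℂ) 1, (ρ : ℂ) * z ∈ ball (0 : ℂ) 1 := fun z hz =>
    dil_mem hρ.1 hρ.2.le hz
  have hlt : ∀ z ∈ ball (0 : ℂ) 1, ‖(ρ : ℂ) * z‖ < ρ := by
    intro z hz
    rw [mem_ball_zero_iff] at hz
    rw [norm_mul, Complex.norm_real, Real.norm_eq_abs, abs_of_pos hρ.1]
    nlinarith only [hz, hρ.1]
  -- the scaled map
  set K : ℂ → ℂ := fun z => (M : ℂ)⁻¹ * k (ρ * z) with hK
  have hMc : (M : ℂ) ≠ 0 := by exact_mod_cast hMp.ne'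
  have hρc : (ρ : ℂ) ≠ 0 := by exact_mod_cast hρ.1.ne'
  have hder : ∀ (g : ℂ → ℂ), DifferentiableOn ℂ g (ball 0 1) → ∀ (c : ℂ), ∀ z ∈ ball (0 : ℂ) 1,
      HasDerivAt (fun z => c * g (ρ * z)) (c * (deriv g (ρ * z) * ρ)) z := by
    intro g hg c z hz
    have h2 := (hg.differentiableAt (isOpen_ball.mem_nhds (hmem z hz))).hasDerivAt
    have h3 : HasDerivAt (fun z : ℂ => (ρ : ℂ) * z) ρ z := by
      simpa using (hasDerivAt_id z).const_mul (ρ : ℂ)
    exact (h2.comp z h3).const_mul c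
  have hKU : Univ K := by
    constructor
    · intro z hz
      exact (hder k hk.1 _ z hz).differentiableAt.differentiableWithinAt
    · intro a ha b hb hab
      have h1 := mul_left_cancel₀ (inv_ne_zero hMc) hab
      exact mul_left_cancel₀ hρc (hk.2 (hmem a ha) (hmem b hb) h1)
  have hKb : ∀ z ∈ ball (0 : ℂ) 1, K z ∈ ball (0 : ℂ) 1 := by
    intro z hz
    rw [mem_ball_zero_iff, hK]
    simp only
    rw [norm_mul, norm_inv, Complex.norm_real, Real.norm_eq_abs, abs_of_pos hMp,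
      inv_mul_lt_iff₀ hMp, mul_one]
    refine lt_of_le_of_lt (growth hk hne (hmem z hz)) ?_
    rw [hM]
    apply mul_lt_mul_of_pos_left _ hk0
    apply mul_lt_mul_of_pos_left _ (by norm_num)
    apply Real.rpow_lt_rpow_of_neg hρ1 _ (by norm_num)
    linarith [hlt z hz]
  set c : ℝ := M ^ (-(t / 2)) with hc
  have hcp : 0 < c := Real.rpow_pos_of_pos hMp _
  set H : ℂ → ℂ := fun z => (c : ℂ) * h (ρ * z) with hH
  have hHd : DifferentiableOn ℂ H (ball 0 1) := fun z hz =>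
    (hder h hh _ z hz).differentiableAt.differentiableWithinAt
  have hHn : ∀ z ∈ ball (0 : ℂ) 1, ‖deriv H z‖ ^ 2 =
      (t / 2) ^ 2 * (‖deriv K z‖ ^ 2 * ‖K z‖ ^ (t - 2)) := by
    intro z hz
    rw [(hder h hh c z hz).deriv, (hder k hk.1 _ z hz).deriv, hK]
    simp only [norm_mul, norm_inv, Complex.norm_real, Real.norm_eq_abs, abs_of_pos hMp,
      abs_of_pos hcp, abs_of_pos hρ.1]
    have h1 := hd _ (hmem z hz)
    have hkz : 0 < ‖k (ρ * z)‖ := norm_pos_iff.mpr (hne _ (hmem z hz))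
    rw [mul_pow, mul_pow, h1, Real.mul_rpow (by (clear * - hk0 hρ1; positivity)) hkz.le]
    have e1 : c ^ 2 = M⁻¹ ^ 2 * M⁻¹ ^ (t - 2) := by
      rw [hc, ← Real.rpow_two (M⁻¹), ← Real.rpow_add (by (clear * - hk0 hρ1; positivity)), ← Real.rpow_mul_natCast hMp.le,
        ← Real.rpow_neg_one M, ← Real.rpow_mul hMp.le]
      congr 1
      push_cast
      ring
    rw [e1]
    ring
  have h2 := FF.dirichlet hHd
  have h3 : ∫⁻ z in ball (0 : ℂ) 1, ENNReal.ofReal (‖deriv H z‖ ^ 2) ≤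
      ENNReal.ofReal ((t / 2) ^ 2) * A := by
    rw [setLIntegral_congr_fun measurableSet_ball (g := fun z => ENNReal.ofReal ((t / 2) ^ 2) *
      ENNReal.ofReal (‖deriv K z‖ ^ 2 * ‖K z‖ ^ (t - 2))) (fun z hz => by
        simp only
        rw [hHn z hz, ENNReal.ofReal_mul (by positivity)])]
    rw [lintegral_const_mul' _ _ ENNReal.ofReal_ne_top]
    exact mul_le_mul_right (area_pow hKU hKb) _
  rw [h2] at h3
  -- coefficients of `H`
  have htc : ∀ n, ‖tc H n‖ ^ 2 = c ^ 2 * (ρ ^ (2 * n) * ‖tc h n‖ ^ 2) := by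
    intro n
    have e1 : tc H n = c * ((ρ : ℂ) ^ n * tc h n) := by
      have hhd : DifferentiableOn ℂ (fun z => h (ρ * z)) (ball 0 1) := by
        intro z hz
        have := (hder h hh 1 z hz).differentiableAt.differentiableWithinAt (s := ball (0 : ℂ) 1)
        simpa using this
      rw [← tc_dil hh hρ.1 hρ.2.le n, hH, tc, tc, iteratedDeriv_const_mul_field]
      ring
    rw [e1, norm_mul, norm_mul, norm_pow, Complex.norm_real, Complex.norm_real, Real.norm_eq_abs,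
      Real.norm_eq_abs, abs_of_pos hcp, abs_of_pos hρ.1]
    ring
  have h4 : ENNReal.ofReal π * ENNReal.ofReal (∑ n ∈ Finset.range N,
      ((n : ℝ) + 1) * ‖tc H (n + 1)‖ ^ 2) ≤ ENNReal.ofReal ((t / 2) ^ 2) * A := by
    refine le_trans (mul_le_mul_right ?_ _) h3
    rw [ENNReal.ofReal_sum_of_nonneg (fun i _ => by (clear * -; positivity))]
    exact ENNReal.sum_le_tsum _
  have h5 : ∑ n ∈ Finset.range N, ((n : ℝ) + 1) * ‖tc H (n + 1)‖ ^ 2 ≤
      π⁻¹ * ((t / 2) ^ 2 * A.toReal) := by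
    rw [← ENNReal.ofReal_mul Real.pi_pos.le] at h4
    have h6 := ENNReal.toReal_mono (ENNReal.mul_ne_top ENNReal.ofReal_ne_top hAt) h4
    rw [ENNReal.toReal_ofReal (mul_nonneg Real.pi_pos.le (Finset.sum_nonneg fun i _ => by
      (clear * -; positivity))), ENNReal.toReal_mul, ENNReal.toReal_ofReal (by positivity)] at h6
    rw [← div_eq_inv_mul, le_div_iff₀ Real.pi_pos]
    linarith only [h6]
  have e6 : ∑ n ∈ Finset.range N, ((n : ℝ) + 1) * ‖tc h (n + 1)‖ ^ 2 * ρ ^ (2 * (n + 1)) =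
      (c ^ 2)⁻¹ * ∑ n ∈ Finset.range N, ((n : ℝ) + 1) * ‖tc H (n + 1)‖ ^ 2 := by
    rw [Finset.mul_sum]
    apply Finset.sum_congr rfl
    intro n _
    rw [htc]
    (clear * - hcp; field_simp)
  have e7 : (c ^ 2)⁻¹ = (4 * ‖k 0‖) ^ t * (1 - ρ) ^ (-(2 * t)) := by
    have hp : 0 ≤ (1 - ρ) ^ (-2 : ℝ) := Real.rpow_nonneg hρ1.le _
    rw [hc, ← Real.rpow_mul_natCast hMp.le, ← Real.rpow_neg hMp.le,
      show -(-(t / 2) * ((2 : ℕ) : ℝ)) = t by push_cast; ring, hM,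
      show ‖k 0‖ * (4 * (1 - ρ) ^ (-2 : ℝ)) = 4 * ‖k 0‖ * (1 - ρ) ^ (-2 : ℝ) by ring,
      Real.mul_rpow (by positivity) hp, ← Real.rpow_mul hρ1.le]
    congr 2
    ring
  rw [e6, e7]
  have hp2 : 0 ≤ (4 * ‖k 0‖) ^ t * (1 - ρ) ^ (-(2 * t)) :=
    mul_nonneg (Real.rpow_nonneg (by positivity) _) (Real.rpow_nonneg hρ1.le _)
  calc _ ≤ (4 * ‖k 0‖) ^ t * (1 - ρ) ^ (-(2 * t)) * (π⁻¹ * ((t / 2) ^ 2 * A.toReal)) :=
        mul_le_mul_of_nonneg_left h5 hp2
    _ ≤ (4 * 2) ^ t * (1 - ρ) ^ (-(2 * t)) * (π⁻¹ * ((t / 2) ^ 2 * A.toReal)) := by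
        have h1 : (4 * ‖k 0‖) ^ t ≤ (4 * 2 : ℝ) ^ t :=
          Real.rpow_le_rpow (by positivity) (by linarith) ht.le
        have h2 : 0 ≤ (1 - ρ) ^ (-(2 * t)) := Real.rpow_nonneg hρ1.le _
        have h3 : 0 ≤ π⁻¹ * ((t / 2) ^ 2 * A.toReal) := by (clear * - ht; positivity)
        exact mul_le_mul_of_nonneg_right (mul_le_mul_of_nonneg_right h1 h2) h3
    _ = _ := by ring

/-- Integral means of the derivative for `1 / 2 < t < 2`. -/
theorem pos_mean' (ht : 1 / 2 < t) (ht2 : t < 2) :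
    ∃ C : ℝ, ∀ f ∈ ClassS, ∀ r ∈ Ico (1 / 2 : ℝ) 1, (1 - r) ^ (3 * t - 1) * MM f t r ≤ C := by
  have ht0 : 0 < t := by linarith only [ht]
  obtain ⟨B, hB, hco'⟩ := coef_bound' ht0
  set C1 : ℝ := 4 * 2 ^ (2 * t) * B with hC1
  set C2 : ℝ := 2 ^ t + 6 * B / (2 * t - 1) with hC2
  refine ⟨(2 / t) ^ t * (2 * π) * (C1 + C2), ?_⟩
  intro f hfS
  have hf := univ_of_classS hfS
  obtain ⟨c, hc2, hc⟩ := exists_omitted_lt hfS
  set k : ℂ → ℂ := fun z => f z - c with hk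
  have hkU : Univ k := ⟨hf.1.sub_const c, fun a ha b hb hab => hf.2 ha hb (by
    simp only [hk] at hab
    linear_combination hab)⟩
  have hne : ∀ z ∈ ball (0 : ℂ) 1, k z ≠ 0 := fun z hz => sub_ne_zero.mpr (hc z hz)
  have hkd : ∀ z, deriv k z = deriv f z := fun z => by rw [hk, deriv_sub_const]
  obtain ⟨L, hL1, hL2, hL3⟩ := exists_logf hkU.1 hne
  set h : ℂ → ℂ := fun z => Complex.exp (((t / 2 : ℝ) : ℂ) * L z) with hh
  have hhd : ∀ z ∈ ball (0 : ℂ) 1, HasDerivAt h (h z * (((t / 2 : ℝ) : ℂ) * (deriv k z / k z))) z :=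
    fun z hz => ((hL1 z hz).const_mul _).cexp
  have hhD : DifferentiableOn ℂ h (ball 0 1) := fun z hz =>
    (hhd z hz).differentiableAt.differentiableWithinAt
  have hhn : ∀ z ∈ ball (0 : ℂ) 1, ‖h z‖ = ‖k z‖ ^ (t / 2) := by
    intro z hz
    rw [hL2 z hz, hh, Complex.norm_exp, Complex.norm_exp, re_ofReal_mul, ← Real.exp_mul]
    congr 1
    ring
  have hkp : ∀ z ∈ ball (0 : ℂ) 1, 0 < ‖k z‖ := fun z hz => norm_pos_iff.mpr (hne z hz)
  have hdn : ∀ z ∈ ball (0 : ℂ) 1, ‖deriv h z‖ = ‖k z‖ ^ (t / 2) * (t / 2 * (‖deriv k z‖ / ‖k z‖)) := by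
    intro z hz
    rw [(hhd z hz).deriv, norm_mul, norm_mul, norm_div, hhn z hz, Complex.norm_real,
      Real.norm_eq_abs, abs_of_pos (by positivity)]
  have hd : ∀ z ∈ ball (0 : ℂ) 1, ‖deriv h z‖ ^ 2 =
      (t / 2) ^ 2 * (‖deriv k z‖ ^ 2 * ‖k z‖ ^ (t - 2)) := by
    intro z hz
    rw [hdn z hz, Real.rpow_sub (hkp z hz), Real.rpow_two, mul_pow, ← Real.rpow_mul_natCast
      (hkp z hz).le]
    have e : t / 2 * ((2 : ℕ) : ℝ) = t := by push_cast; ring
    rw [e]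
    have := (hkp z hz).ne'
    (clear * - this ht; field_simp)
  have h00 : (0 : ℂ) ∈ ball (0 : ℂ) 1 := mem_ball_self one_pos
  have hk2 : ‖k 0‖ ≤ 2 := by
    simp only [hk, hfS.2.2.1, zero_sub, norm_neg]
    exact hc2.le
  have hco := hco' k h hkU hne hk2 hhD hd
  have htc : ‖tc h 0‖ ^ 2 ≤ 2 ^ t := by
    have e1 : tc h 0 = h 0 := by
      unfold tc
      simp
    rw [e1, hhn 0 h00, ← Real.rpow_mul_natCast (norm_nonneg _),
      show t / 2 * ((2 : ℕ) : ℝ) = t by push_cast; ring]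
    exact Real.rpow_le_rpow (norm_nonneg _) hk2 ht0.le
  intro r hr
  have hr0 : 0 ≤ r := by linarith only [hr.1]
  have hr1 : 0 < 1 - r := by linarith only [hr.2]
  have m1 := mean2_deriv_le hhD hco hr
  have m2 : mean2 h r ≤ C2 * (1 - r) ^ (-(2 * t - 1)) := by
    refine (mean2_le hhD ht hB hco hr).trans ?_
    apply mul_le_mul_of_nonneg_right _ (Real.rpow_nonneg hr1.le _)
    rw [hC2]
    linarith
  have hmem := fun θ : ℝ => circleMap_mem_unit hr0 hr.2 θ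
  -- pointwise Young
  have hpt : ∀ z ∈ ball (0 : ℂ) 1, ‖deriv f z‖ ^ t ≤ (2 / t) ^ t *
      (‖deriv h z‖ ^ 2 * (1 - r) ^ (2 - t) + ‖h z‖ ^ 2 * (1 - r) ^ (-t)) := by
    intro z hz
    have hkz := hkp z hz
    have e1 : ‖deriv f z‖ ^ t = (2 / t) ^ t * ((‖deriv h z‖ ^ 2) ^ (t / 2) *
        (‖h z‖ ^ 2) ^ (1 - t / 2)) := by
      rw [← Real.rpow_natCast_mul (norm_nonneg _), ← Real.rpow_natCast_mul (norm_nonneg _),
        show ((2 : ℕ) : ℝ) * (t / 2) = t by push_cast; ring,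
        show ((2 : ℕ) : ℝ) * (1 - t / 2) = 2 - t by push_cast; ring, hdn z hz, hhn z hz,
        Real.mul_rpow (by positivity) (by (clear * - ht hkz; positivity)), Real.mul_rpow (by positivity) (by (clear * - hkz; positivity)),
        Real.div_rpow (norm_nonneg _) hkz.le, hkd, ← Real.rpow_mul hkz.le, ← Real.rpow_mul hkz.le]
      have e2 : ‖k z‖ ^ (t / 2 * t) * ‖k z‖ ^ (t / 2 * (2 - t)) = ‖k z‖ ^ t := by
        rw [← Real.rpow_add hkz]; congr 1; ring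
      have e3 : (2 / t) ^ t * (t / 2) ^ t = 1 := by
        rw [← Real.mul_rpow (by positivity) (by positivity)]
        have : 2 / t * (t / 2) = 1 := by field_simp
        rw [this, Real.one_rpow]
      have e4 : ‖k z‖ ^ t ≠ 0 := (Real.rpow_pos_of_pos hkz t).ne'
      calc ‖deriv f z‖ ^ t = 1 * (‖k z‖ ^ t / ‖k z‖ ^ t) * ‖deriv f z‖ ^ t := by
            rw [div_self e4]; ring
        _ = ((2 / t) ^ t * (t / 2) ^ t) *
            ((‖k z‖ ^ (t / 2 * t) * ‖k z‖ ^ (t / 2 * (2 - t))) / ‖k z‖ ^ t) * ‖deriv f z‖ ^ t := by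
            rw [e2, e3]
        _ = _ := by ring
    rw [e1]
    apply mul_le_mul_of_nonneg_left _ (Real.rpow_nonneg (by positivity) _)
    set x := ‖deriv h z‖ ^ 2 with hx
    set y := ‖h z‖ ^ 2 with hy
    have hx0 : 0 ≤ x := by (clear * -; positivity)
    have hy0 : 0 ≤ y := by (clear * -; positivity)
    set u := (1 - r) ^ (2 - t) with hu
    set v := (1 - r) ^ (-t) with hv
    have hu0 : 0 < u := Real.rpow_pos_of_pos hr1 _
    have hv0 : 0 < v := Real.rpow_pos_of_pos hr1 _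
    have huv : u ^ (t / 2) * v ^ (1 - t / 2) = 1 := by
      rw [hu, hv, ← Real.rpow_mul hr1.le, ← Real.rpow_mul hr1.le, ← Real.rpow_add hr1]
      have : (2 - t) * (t / 2) + -t * (1 - t / 2) = 0 := by ring
      rw [this, Real.rpow_zero]
    have h1 := Real.geom_mean_le_arith_mean2_weighted (w₁ := t / 2) (w₂ := 1 - t / 2)
      (p₁ := x * u) (p₂ := y * v) (by positivity) (by linarith only [ht2]) (by (clear * - hr1; positivity)) (by (clear * - hr1; positivity))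
      (by ring)
    rw [Real.mul_rpow hx0 hu0.le, Real.mul_rpow hy0 hv0.le] at h1
    have h2 : x ^ (t / 2) * u ^ (t / 2) * (y ^ (1 - t / 2) * v ^ (1 - t / 2)) =
        x ^ (t / 2) * y ^ (1 - t / 2) := by
      calc _ = x ^ (t / 2) * y ^ (1 - t / 2) * (u ^ (t / 2) * v ^ (1 - t / 2)) := by ring
        _ = _ := by rw [huv, mul_one]
    rw [h2] at h1
    have h3 : 0 ≤ x * u := by (clear * - hr1; positivity)
    have h4 : 0 ≤ y * v := by (clear * - hr1; positivity)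
    nlinarith only [h1, h4, ht, ht2, h3]
  -- integrate
  have hd' : ∀ z ∈ ball (0 : ℂ) 1, deriv f z ≠ 0 := fun z hz => univ_deriv_ne_zero hf hz
  have hc1 := continuous_weight (t := t) hf.1 hd' hr0 hr.2
  have hc2 : Continuous (fun θ : ℝ => ‖deriv h (circleMap 0 r θ)‖ ^ 2) :=
    (((hhD.deriv isOpen_ball).continuousOn.comp_continuous (continuous_circleMap 0 r) hmem).norm).pow 2
  have hc3 : Continuous (fun θ : ℝ => ‖h (circleMap 0 r θ)‖ ^ 2) :=
    ((hhD.continuousOn.comp_continuous (continuous_circleMap 0 r) hmem).norm).pow 2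
  have hpi : (-π) ≤ π := by linarith only [Real.pi_pos]
  have hM : MM f t r ≤ (2 / t) ^ t * (2 * π) *
      (mean2 (deriv h) r * (1 - r) ^ (2 - t) + mean2 h r * (1 - r) ^ (-t)) := by
    have e1 : (2 / t) ^ t * (2 * π) *
      (mean2 (deriv h) r * (1 - r) ^ (2 - t) + mean2 h r * (1 - r) ^ (-t)) =
      ∫ θ in (-π)..π, (2 / t) ^ t * (‖deriv h (circleMap 0 r θ)‖ ^ 2 * (1 - r) ^ (2 - t) +
        ‖h (circleMap 0 r θ)‖ ^ 2 * (1 - r) ^ (-t)) := by
      rw [intervalIntegral.integral_const_mul, intervalIntegral.integral_add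
        ((hc2.mul_const _).intervalIntegrable _ _) ((hc3.mul_const _).intervalIntegrable _ _),
        intervalIntegral.integral_mul_const, intervalIntegral.integral_mul_const, mean2, mean2]
      have : (2 * π : ℝ) ≠ 0 := by positivity
      (clear * - ht; field_simp)
    rw [e1, MM]
    apply intervalIntegral.integral_mono_on hpi (hc1.intervalIntegrable _ _)
    · apply Continuous.intervalIntegrable
      exact continuous_const.mul ((hc2.mul_const _).add (hc3.mul_const _))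
    · intro θ _
      exact hpt _ (hmem θ)
  have hq : 0 ≤ (1 - r) ^ (3 * t - 1) := Real.rpow_nonneg hr1.le _
  have q1 : (1 - r) ^ (3 * t - 1) * ((1 - r) ^ (-(1 + 2 * t)) * (1 - r) ^ (2 - t)) = 1 := by
    rw [← Real.rpow_add hr1, ← Real.rpow_add hr1]
    have : 3 * t - 1 + (-(1 + 2 * t) + (2 - t)) = 0 := by ring
    rw [this, Real.rpow_zero]
  have q2 : (1 - r) ^ (3 * t - 1) * ((1 - r) ^ (-(2 * t - 1)) * (1 - r) ^ (-t)) = 1 := by
    rw [← Real.rpow_add hr1, ← Real.rpow_add hr1]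
    have : 3 * t - 1 + (-(2 * t - 1) + -t) = 0 := by ring
    rw [this, Real.rpow_zero]
  have hcc : 0 ≤ (2 / t) ^ t * (2 * π) :=
    mul_nonneg (Real.rpow_nonneg (by positivity) _) (by positivity)
  have n1 : 0 ≤ (1 - r) ^ (2 - t) := Real.rpow_nonneg hr1.le _
  have n2 : 0 ≤ (1 - r) ^ (-t) := Real.rpow_nonneg hr1.le _
  calc (1 - r) ^ (3 * t - 1) * MM f t r ≤ (1 - r) ^ (3 * t - 1) * ((2 / t) ^ t * (2 * π) *
      (mean2 (deriv h) r * (1 - r) ^ (2 - t) + mean2 h r * (1 - r) ^ (-t))) :=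
        mul_le_mul_of_nonneg_left hM hq
    _ ≤ (1 - r) ^ (3 * t - 1) * ((2 / t) ^ t * (2 * π) *
      (C1 * (1 - r) ^ (-(1 + 2 * t)) * (1 - r) ^ (2 - t) +
        C2 * (1 - r) ^ (-(2 * t - 1)) * (1 - r) ^ (-t))) := by
        apply mul_le_mul_of_nonneg_left _ hq
        apply mul_le_mul_of_nonneg_left _ hcc
        exact add_le_add (mul_le_mul_of_nonneg_right m1 n1) (mul_le_mul_of_nonneg_right m2 n2)
    _ = (2 / t) ^ t * (2 * π) * (C1 *
          ((1 - r) ^ (3 * t - 1) * ((1 - r) ^ (-(1 + 2 * t)) * (1 - r) ^ (2 - t))) + C2 *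
          ((1 - r) ^ (3 * t - 1) * ((1 - r) ^ (-(2 * t - 1)) * (1 - r) ^ (-t)))) := by ring
    _ = _ := by rw [q1, q2]; ring

end

end Vale.Agent.P142.H838
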