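import Vale.Agent.P142.H838.MeansLow

/-!
P142, endpoint form of Brennan's conjecture: the integral means spectrum on `(-∞, -2]` and the
sharpness of the weak type estimates (Koebe function).
-/

open Complex MeasureTheory Metric Set Filter Topology
open scoped Real ComplexConjugate ENNReal

namespace Vale.Agent.P142.H838

open Vale.Agent.P142.Brn (koe koe_ne koe_ne' koe_deriv koe_mem koe_circle koe_pos blockF_of blockI)

noncomputable section

variable {f F : ℂ → ℂ} {t r r₀ : ℝ}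

/-! ### Upper bound for the spectrum -/

lemma BS_le (ht : t < -2) : BS t ≤ ((-t - 1 : ℝ) : EReal) := by
  obtain ⟨C, hC, h⟩ := mean_low ht
  unfold BS
  refine iSup₂_le fun F hF => ?_
  have hFU := univ_of_classS hF
  apply betaF_le hFU (β := -t - 1) (C := 2 * π * C) (r₀ := 1 / 2) (by norm_num) (by norm_num)
  intro r hr
  have hr0 : 0 ≤ r := by linarith [hr.1]
  have hq : 0 < 1 - r := by linarith [hr.2]
  have h1 := h F hF r hr0 hr.2
  have e4 : intMean F t r = (2 * π)⁻¹ * MM F t r := rfl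
  have hpi := Real.pi_pos
  rw [e4, inv_mul_le_iff₀ (by positivity)] at h1
  have hp : 0 < (1 - r) ^ (-t - 1) := Real.rpow_pos_of_pos hq _
  calc (1 - r) ^ (-t - 1) * MM F t r ≤ (1 - r) ^ (-t - 1) * (2 * π * (C * (1 - r) ^ (t + 1))) := by
        gcongr
    _ = 2 * π * C * ((1 - r) ^ (-t - 1) * (1 - r) ^ (t + 1)) := by ring
    _ = 2 * π * C := by
        rw [← Real.rpow_add hq]
        have : -t - 1 + (t + 1) = 0 := by ring
        rw [this, Real.rpow_zero, mul_one]

/-! ### Lower bound: the Koebe function -/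

lemma koe_lower_circle {θ : ℝ} (hr0 : 1 / 2 ≤ r) (hr1 : r < 1) (hθ : |θ| ≤ 1 - r) :
    ‖deriv koe (circleMap 0 r θ)‖ ≤ 2 * (1 - r) := by
  have hr : 0 ≤ r := by linarith
  have hz := koe_circle (θ := θ) hr hr1
  rw [(koe_deriv hz).deriv, norm_div, norm_pow]
  have h1 : ‖1 - circleMap 0 r θ‖ ≤ 2 * (1 - r) := by
    have e : 1 - circleMap 0 r θ = ((1 - r : ℝ) : ℂ) - (r : ℂ) * (exp (I * θ) - 1) := by
      simp only [circleMap, zero_add]
      rw [mul_comm I (θ : ℂ)]
      push_cast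
      ring
    rw [e]
    refine (norm_sub_le _ _).trans ?_
    rw [norm_mul, norm_real, norm_real, Real.norm_eq_abs, Real.norm_eq_abs,
      abs_of_nonneg (by linarith only [hr1] : (0 : ℝ) ≤ 1 - r), abs_of_nonneg hr]
    have h2 := Real.norm_exp_I_mul_ofReal_sub_one_le (x := θ)
    rw [Real.norm_eq_abs] at h2
    nlinarith only [hθ, h2, hr0, hr1]
  have h2 : 1 ≤ ‖1 + circleMap 0 r θ‖ := by
    refine le_trans ?_ (Complex.re_le_norm _)
    have e : (1 + circleMap 0 r θ).re = 1 + r * Real.cos θ := by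
      simp only [circleMap, zero_add, add_re, one_re, re_ofReal_mul, exp_ofReal_mul_I_re]
    rw [e]
    have h3 : 0 ≤ Real.cos θ := by
      apply Real.cos_nonneg_of_mem_Icc
      have := Real.two_le_pi
      rw [abs_le] at hθ
      constructor <;> linarith only [hr0, hθ, this]
    nlinarith only [h3, hr0]
  have h3 : 1 ≤ ‖1 + circleMap 0 r θ‖ ^ 3 := one_le_pow₀ h2
  calc ‖1 - circleMap 0 r θ‖ / ‖1 + circleMap 0 r θ‖ ^ 3 ≤ ‖1 - circleMap 0 r θ‖ / 1 :=
        div_le_div_of_nonneg_left (norm_nonneg _) one_pos h3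
    _ ≤ 2 * (1 - r) := by rw [div_one]; exact h1

lemma koe_mean' (ht : t ≤ 0) (hr0 : 1 / 2 ≤ r) (hr1 : r < 1) :
    (2 * π)⁻¹ * (2 * (1 - r)) ^ (t + 1) ≤ intMean koe t r := by
  have hr : 0 ≤ r := by linarith
  have hs : 0 < 1 - r := by linarith
  have hpi := Real.two_le_pi
  have hU := univ_of_classS koe_mem
  have hc : Continuous fun θ : ℝ => ‖deriv koe (circleMap 0 r θ)‖ ^ t :=
    continuous_weight hU.1 (fun z hz => univ_deriv_ne_zero hU hz) hr hr1
  have h1 : ∫ _θ in (-(1 - r))..(1 - r), (2 * (1 - r)) ^ t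
      ≤ ∫ θ in (-(1 - r))..(1 - r), ‖deriv koe (circleMap 0 r θ)‖ ^ t := by
    refine intervalIntegral.integral_mono_on (by linarith) intervalIntegrable_const
      (hc.intervalIntegrable _ _) (fun θ hθ => ?_)
    exact Real.rpow_le_rpow_of_nonpos (koe_pos hr hr1)
      (koe_lower_circle hr0 hr1 (abs_le.2 hθ)) ht
  have h2 : ∫ θ in (-(1 - r))..(1 - r), ‖deriv koe (circleMap 0 r θ)‖ ^ t
      ≤ ∫ θ in (-π)..π, ‖deriv koe (circleMap 0 r θ)‖ ^ t := by
    refine intervalIntegral.integral_mono_interval (by linarith) (by linarith) (by linarith)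
      (Filter.Eventually.of_forall fun θ => Real.rpow_nonneg (norm_nonneg _) _)
      (hc.intervalIntegrable _ _)
  rw [intervalIntegral.integral_const, smul_eq_mul] at h1
  have h4 := h1.trans h2
  unfold intMean
  refine mul_le_mul_of_nonneg_left (le_trans (le_of_eq ?_) h4) (by positivity)
  rw [Real.rpow_add_one (by positivity)]
  ring

lemma tendsto_log_inv : Tendsto (fun r : ℝ => Real.log (1 / (1 - r))) (𝓝[<] 1) atTop := by
  apply Real.tendsto_log_atTop.comp
  have h1 : Tendsto (fun r : ℝ => 1 - r) (𝓝[<] 1) (𝓝[>] 0) := by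
    rw [tendsto_nhdsWithin_iff]
    constructor
    · have : Tendsto (fun r : ℝ => 1 - r) (𝓝 1) (𝓝 (1 - 1)) :=
        (continuous_const.sub continuous_id).tendsto 1
      rw [sub_self] at this
      exact this.mono_left nhdsWithin_le_nhds
    · filter_upwards [self_mem_nhdsWithin] with r hr
      have : r < 1 := hr
      exact sub_pos.mpr this
  have h2 := tendsto_inv_nhdsGT_zero.comp h1
  refine h2.congr (fun r => ?_)
  simp [Function.comp]

lemma le_betaF_koe (ht : t ≤ 0) : ((-t - 1 : ℝ) : EReal) ≤ betaF koe t := by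
  have hpi := Real.pi_pos
  set c : ℝ := (2 * π)⁻¹ * 2 ^ (t + 1) with hc
  have hc0 : 0 < c := by positivity
  have h1 : Tendsto (fun r : ℝ =>
      (((-t - 1) + Real.log c / Real.log (1 / (1 - r)) : ℝ) : EReal)) (𝓝[<] 1)
      (𝓝 ((-t - 1 : ℝ) : EReal)) := by
    rw [EReal.tendsto_coe]
    have := (tendsto_log_inv.const_div_atTop (Real.log c)).const_add (-t - 1)
    rwa [add_zero] at this
  rw [← h1.limsup_eq]
  unfold betaF
  refine Filter.limsup_le_limsup ?_
  have h2 : ∀ᶠ r : ℝ in 𝓝[<] 1, 1 / 2 ≤ r :=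
    nhdsWithin_le_nhds (Filter.eventually_of_mem (Ioi_mem_nhds (by norm_num : (1 / 2 : ℝ) < 1))
      (fun r hr => le_of_lt hr))
  filter_upwards [h2, self_mem_nhdsWithin] with r hr hr'
  have hr1 : r < 1 := hr'
  have hs : 0 < 1 - r := by linarith
  rw [EReal.coe_le_coe_iff]
  have hL : 0 < Real.log (1 / (1 - r)) := by
    apply Real.log_pos
    rw [lt_div_iff₀ hs]
    linarith only [hr]
  rw [le_div_iff₀ hL, add_mul, div_mul_cancel₀ _ hL.ne']
  have h3 := koe_mean' ht hr hr1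
  have e : (2 * π)⁻¹ * (2 * (1 - r)) ^ (t + 1) = c * (1 - r) ^ (t + 1) := by
    rw [Real.mul_rpow (by norm_num) hs.le, hc]
    ring
  rw [e] at h3
  have hp : 0 < (1 - r) ^ (t + 1) := Real.rpow_pos_of_pos hs _
  have h4 := Real.log_le_log (by positivity) h3
  rw [Real.log_mul hc0.ne' hp.ne', Real.log_rpow hs] at h4
  refine le_trans (le_of_eq ?_) h4
  rw [one_div, Real.log_inv]
  ring

/-- **The integral means spectrum on `(-∞, -2]`.** -/
theorem BS_eq (ht : t ≤ -2) : BS t = ((-t - 1 : ℝ) : EReal) := by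
  apply le_antisymm
  · rcases eq_or_lt_of_le ht with h | h
    · subst h
      have := Brn.G1s.BS_neg_two_le (blockF_of blockI Brn.Par6.blockP)
      refine this.trans (le_of_eq ?_)
      norm_num
    · exact BS_le h
  · exact (le_betaF_koe (by linarith)).trans
      (le_iSup₂ (f := fun f (_ : f ∈ ClassS) => betaF f t) koe koe_mem)

/-! ### Sharpness -/

lemma ball_vol {c : ℂ} {ρ : ℝ} (hρ : 0 ≤ ρ) : volume (ball c ρ) = ENNReal.ofReal (π * ρ ^ 2) := by
  have hpi := Real.pi_pos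
  have e : ((NNReal.pi : NNReal) : ℝ≥0∞) = ENNReal.ofReal π := by
    rw [ENNReal.ofReal, Real.toNNReal_of_nonneg hpi.le]
    rfl
  rw [Complex.volume_ball, e, ← ENNReal.ofReal_pow hρ, ← ENNReal.ofReal_mul (by positivity),
    mul_comm]

/-- The weak type estimates are sharp in both exponents. -/
theorem sharp : ∃ f ∈ ClassS,
    (∀ l : ℝ, 0 < l → l ≤ 1 → ENNReal.ofReal (π / 4 * l ^ 2) ≤
      volume {z | z ∈ ball (0 : ℂ) 1 ∧ ‖deriv f z‖ < l}) ∧
    (∀ l : ℝ, 1 ≤ l → ENNReal.ofReal (π / 4 * l ^ (-(2 / 3) : ℝ)) ≤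
      volume {z | z ∈ ball (0 : ℂ) 1 ∧ l < ‖deriv f z‖}) := by
  refine ⟨koe, koe_mem, fun l hl hl1 => ?_, fun l hl => ?_⟩
  · have e : ENNReal.ofReal (π / 4 * l ^ 2) = volume (ball ((1 - l / 2 : ℝ) : ℂ) (l / 2)) := by
      rw [ball_vol (by positivity)]
      congr 1
      ring
    rw [e]
    apply measure_mono
    intro z hz
    rw [mem_ball, dist_eq_norm] at hz
    have h1 : ‖z‖ < 1 := by
      calc ‖z‖ = ‖(z - ((1 - l / 2 : ℝ) : ℂ)) + ((1 - l / 2 : ℝ) : ℂ)‖ := by rw [sub_add_cancel]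
        _ ≤ ‖z - ((1 - l / 2 : ℝ) : ℂ)‖ + ‖((1 - l / 2 : ℝ) : ℂ)‖ := norm_add_le _ _
        _ < l / 2 + (1 - l / 2) := by
            rw [Complex.norm_real, Real.norm_eq_abs, abs_of_nonneg (by linarith)]
            linarith
        _ = 1 := by ring
    have hzb : z ∈ ball (0 : ℂ) 1 := by rwa [mem_ball_zero_iff]
    refine ⟨hzb, ?_⟩
    rw [(koe_deriv hzb).deriv, norm_div, norm_pow]
    have h2 : ‖1 - z‖ < l := by
      calc ‖1 - z‖ = ‖((l / 2 : ℝ) : ℂ) - (z - ((1 - l / 2 : ℝ) : ℂ))‖ := by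
            congr 1
            push_cast
            ring
        _ ≤ ‖((l / 2 : ℝ) : ℂ)‖ + ‖z - ((1 - l / 2 : ℝ) : ℂ)‖ := norm_sub_le _ _
        _ < l / 2 + l / 2 := by
            rw [Complex.norm_real, Real.norm_eq_abs, abs_of_nonneg (by linarith)]
            linarith
        _ = l := by ring
    have h3 : 1 ≤ ‖1 + z‖ := by
      have h4 := norm_sub_norm_le (2 : ℂ) (1 - z)
      have e2 : (2 : ℂ) - (1 - z) = 1 + z := by ring
      rw [e2, Complex.norm_ofNat] at h4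
      linarith
    have h4 : 1 ≤ ‖1 + z‖ ^ 3 := one_le_pow₀ h3
    exact lt_of_le_of_lt (div_le_self (norm_nonneg _) h4) h2
  · have hl0 : 0 < l := by linarith
    set δ : ℝ := l ^ (-(1 / 3) : ℝ) with hδ
    have hδ0 : 0 < δ := Real.rpow_pos_of_pos hl0 _
    have hδ1 : δ ≤ 1 := Real.rpow_le_one_of_one_le_of_nonpos hl (by norm_num)
    have hδ2 : δ ^ 2 = l ^ (-(2 / 3) : ℝ) := by
      rw [hδ, ← Real.rpow_mul_natCast hl0.le]
      norm_num
    have hδ3 : δ ^ 3 * l = 1 := by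
      rw [hδ, ← Real.rpow_mul_natCast hl0.le]
      norm_num
      rw [Real.rpow_neg_one, inv_mul_cancel₀ hl0.ne']
    have e : ENNReal.ofReal (π / 4 * l ^ (-(2 / 3) : ℝ)) =
        volume (ball ((-(1 - δ / 2) : ℝ) : ℂ) (δ / 2)) := by
      rw [ball_vol (by positivity), ← hδ2]
      congr 1
      ring
    rw [e]
    apply measure_mono
    intro z hz
    rw [mem_ball, dist_eq_norm] at hz
    have h1 : ‖z‖ < 1 := by
      calc ‖z‖ = ‖(z - ((-(1 - δ / 2) : ℝ) : ℂ)) + ((-(1 - δ / 2) : ℝ) : ℂ)‖ := by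
            rw [sub_add_cancel]
        _ ≤ ‖z - ((-(1 - δ / 2) : ℝ) : ℂ)‖ + ‖((-(1 - δ / 2) : ℝ) : ℂ)‖ := norm_add_le _ _
        _ < δ / 2 + (1 - δ / 2) := by
            rw [Complex.norm_real, Real.norm_eq_abs, abs_neg, abs_of_nonneg (by linarith)]
            linarith
        _ = 1 := by ring
    have hzb : z ∈ ball (0 : ℂ) 1 := by rwa [mem_ball_zero_iff]
    refine ⟨hzb, ?_⟩
    rw [(koe_deriv hzb).deriv, norm_div, norm_pow]
    have h2 : ‖1 + z‖ < δ := by
      calc ‖1 + z‖ = ‖((δ / 2 : ℝ) : ℂ) + (z - ((-(1 - δ / 2) : ℝ) : ℂ))‖ := by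
            congr 1
            push_cast
            ring
        _ ≤ ‖((δ / 2 : ℝ) : ℂ)‖ + ‖z - ((-(1 - δ / 2) : ℝ) : ℂ)‖ := norm_add_le _ _
        _ < δ / 2 + δ / 2 := by
            rw [Complex.norm_real, Real.norm_eq_abs, abs_of_nonneg (by linarith)]
            linarith
        _ = δ := by ring
    have h3 : 1 ≤ ‖1 - z‖ := by
      have h4 := norm_sub_norm_le (2 : ℂ) (1 + z)
      have e2 : (2 : ℂ) - (1 + z) = 1 - z := by ring
      rw [e2, Complex.norm_ofNat] at h4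
      linarith
    have h5 : 0 < ‖1 + z‖ := norm_pos_iff.mpr (koe_ne hzb)
    have h6 : ‖1 + z‖ ^ 3 < δ ^ 3 := pow_lt_pow_left₀ h2 h5.le (by norm_num)
    rw [lt_div_iff₀ (by positivity)]
    calc l * ‖1 + z‖ ^ 3 < l * δ ^ 3 := by gcongr
      _ = 1 := by rw [mul_comm]; exact hδ3
      _ ≤ ‖1 - z‖ := h3

end

end Vale.Agent.P142.H838
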