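import Vale.Agent.P142.H838.Layer
import Vale.Agent.P142.H838.Green

/-!
P142, endpoint form of Brennan's conjecture: the inequality
`∫ (4|z|² - 2) / (4a) log (1 + a|h|²) - |h|² / (2 (1 + a|h|²)) ≤ 0`, `h = z / f'`.
-/

open Complex MeasureTheory Metric Set Filter Topology
open scoped Real ComplexConjugate ENNReal

namespace Vale.Agent.P142.H838

open Vale.Agent.P142.Brn

noncomputable section

variable {f : ℂ → ℂ} {R a : ℝ}

/-- `h = z / f'` -/
def hq (f : ℂ → ℂ) (z : ℂ) : ℂ := z / deriv f z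

lemma nice_ne (hf : Nice f R) : ∀ z ∈ ball (0 : ℂ) R, deriv f z ≠ 0 := fun _ hz =>
  H1.injOn_deriv_ne_zero isOpen_ball hf.diff hf.inj hz

lemma hq_diff (hf : Nice f R) : DifferentiableOn ℂ (hq f) (ball 0 R) :=
  differentiableOn_id.div (hf.diff.deriv isOpen_ball) (nice_ne hf)

lemma norm_hq (f : ℂ → ℂ) (z : ℂ) : ‖hq f z‖ = ‖z‖ / ‖deriv f z‖ := by
  unfold hq
  rw [norm_div]

lemma hq_bounds (hf : Nice f R) : ∃ C : ℝ, 0 ≤ C ∧ (∀ z ∈ ball (0 : ℂ) 1, ‖hq f z‖ ≤ C * ‖z‖) ∧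
    ∀ z ∈ ball (0 : ℂ) 1, ‖deriv (hq f) z‖ ≤ C := by
  obtain ⟨m, M, M2, hm, hM, hM2, hb⟩ := exists_deriv_bounds blockH1 hf
  have hsub : closedBall (0 : ℂ) 1 ⊆ ball 0 R := closedBall_subset_ball hf.one_lt
  obtain ⟨D, hD⟩ := (isCompact_closedBall (0 : ℂ) 1).exists_bound_of_continuousOn
    (((hq_diff hf).deriv isOpen_ball).continuousOn.mono hsub)
  refine ⟨max m⁻¹ D, le_max_of_le_left (inv_pos.mpr hm).le, fun z hz => ?_, fun z hz =>
    (hD z (ball_subset_closedBall hz)).trans (le_max_right _ _)⟩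
  have h1 := (hb z (ball_subset_closedBall hz)).1
  rw [norm_hq, div_eq_mul_inv, mul_comm]
  apply mul_le_mul_of_nonneg_right _ (norm_nonneg _)
  exact (inv_anti₀ hm h1).trans (le_max_left _ _)

/-- The weighted Jacobian in terms of `h`. -/
lemma VV_JJ (hf : Nice f R) (ha : 0 < a) {z : ℂ} (hz : z ∈ ball (0 : ℂ) 1 \ {0}) :
    VV a (‖z‖ / ‖deriv f z‖) * JJ f z = KK a (hq f) z := by
  have hzR : z ∈ ball (0 : ℂ) R := ball_subset_ball hf.one_lt.le hz.1
  have hz0 : z ≠ 0 := hz.2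
  have hd : deriv f z ≠ 0 := nice_ne hf z hzR
  have hzn : 0 < ‖z‖ := norm_pos_iff.mpr hz0
  have hdn : 0 < ‖deriv f z‖ := norm_pos_iff.mpr hd
  have hcz : conj z ≠ 0 := by
    rw [Ne, map_eq_zero]
    exact hz0
  have hdd : HasDerivAt (deriv f) (deriv (deriv f) z) z :=
    ((hf.diff.deriv isOpen_ball).differentiableAt (isOpen_ball.mem_nhds hzR)).hasDerivAt
  have hh : HasDerivAt (hq f) ((1 * deriv f z - z * deriv (deriv f) z) / (deriv f z) ^ 2) z :=
    (hasDerivAt_id z).div hdd hd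
  set k : ℂ := deriv (hq f) z with hk
  have hk' : k = (deriv f z - z * deriv (deriv f) z) / (deriv f z) ^ 2 := by
    rw [hk, hh.deriv, one_mul]
  have hdd' : deriv (deriv f) z = (deriv f z - k * (deriv f z) ^ 2) / z := by
    rw [hk']
    field_simp
    ring
  -- `Ez`
  have e0 : z * conj z = ((‖z‖ ^ 2 : ℝ) : ℂ) := by
    rw [Complex.mul_conj']
    push_cast
    ring
  have hzz : ((‖z‖ ^ 2 : ℝ) : ℂ) ≠ 0 := by exact_mod_cast (pow_pos hzn 2).ne'
  have eT : ((‖z‖ ^ 2 : ℝ) : ℂ) + 2 * (tau z : ℂ) = 1 := by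
    unfold tau
    push_cast
    ring
  have eE : Ez f z = deriv f z / (2 * ((‖z‖ ^ 2 : ℝ) : ℂ)) * (1 - 2 * (tau z : ℂ) * (k * deriv f z)) := by
    unfold Ez
    rw [hdd']
    have e1 : deriv f z / 2 + (tau z : ℂ) * ((deriv f z - k * (deriv f z) ^ 2) / z) / conj z =
        deriv f z / 2 + (tau z : ℂ) * (deriv f z - k * (deriv f z) ^ 2) / (z * conj z) := by
      field_simp
    rw [e1, e0]
    field_simp
    linear_combination (1 : ℂ) * eT
  have eB : ‖Ezb f z‖ ^ 2 = (‖deriv f z‖ / (2 * ‖z‖ ^ 2)) ^ 2 := by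
    unfold Ezb
    rw [norm_div, norm_neg, norm_mul, norm_pow, RCLike.norm_conj, Complex.norm_ofNat]
  have eA : ‖Ez f z‖ ^ 2 = (‖deriv f z‖ / (2 * ‖z‖ ^ 2)) ^ 2 *
      ‖1 - 2 * (tau z : ℂ) * (k * deriv f z)‖ ^ 2 := by
    rw [eE, norm_mul, norm_div, norm_mul, Complex.norm_real, Real.norm_eq_abs,
      abs_of_pos (pow_pos hzn 2), Complex.norm_ofNat]
    ring
  have eN : ‖1 - 2 * (tau z : ℂ) * (k * deriv f z)‖ ^ 2 =
      1 - 4 * tau z * (k * deriv f z).re + 4 * tau z ^ 2 * (‖k‖ ^ 2 * ‖deriv f z‖ ^ 2) := by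
    have h1 : ‖k‖ ^ 2 * ‖deriv f z‖ ^ 2 = ‖k * deriv f z‖ ^ 2 := by rw [norm_mul]; ring
    rw [h1]
    generalize k * deriv f z = w
    rw [← Complex.normSq_eq_norm_sq, ← Complex.normSq_eq_norm_sq, Complex.normSq_apply,
      Complex.normSq_apply]
    simp only [Complex.sub_re, Complex.one_re, Complex.mul_re, Complex.re_ofNat, Complex.ofReal_re,
      Complex.im_ofNat, Complex.ofReal_im, Complex.sub_im, Complex.one_im, Complex.mul_im]
    ring
  -- the real part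
  have eR : (z * k * conj (hq f z)).re / ‖z‖ ^ 2 = (k * deriv f z).re / ‖deriv f z‖ ^ 2 := by
    have h1 : z * k * conj (hq f z) = ((‖z‖ ^ 2 / ‖deriv f z‖ ^ 2 : ℝ) : ℂ) * (k * deriv f z) := by
      have hdc : conj (deriv f z) ≠ 0 := by
        rw [Ne, map_eq_zero]
        exact hd
      have e2 : ((‖deriv f z‖ : ℝ) : ℂ) ^ 2 = deriv f z * conj (deriv f z) := by
        rw [Complex.mul_conj']
      have e3 : ((‖z‖ : ℝ) : ℂ) ^ 2 = z * conj z := by
        rw [Complex.mul_conj']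
      unfold hq
      rw [map_div₀]
      push_cast
      rw [e2, e3]
      field_simp
    rw [h1, Complex.re_ofReal_mul]
    field_simp
  have hden : 0 < 1 + a * (‖z‖ / ‖deriv f z‖) ^ 2 := by positivity
  unfold KK VV JJ
  rw [← hk, norm_hq, mul_div_assoc, eR, eA, eB, eN]
  field_simp
  ring

/-- The basic inequality. -/
theorem star (hf : Nice f R) (ha : 0 < a) : IntegrableOn (LL a (hq f)) (ball 0 1) ∧
    ∫ z in ball (0 : ℂ) 1, LL a (hq f) z ≤ 0 := by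
  obtain ⟨C, hC, hb, hb'⟩ := hq_bounds hf
  have hd : DifferentiableOn ℂ (hq f) (ball 0 1) :=
    (hq_diff hf).mono (ball_subset_ball hf.one_lt.le)
  obtain ⟨iK, iL, e⟩ := green ha hd hC hb hb'
  refine ⟨iL, ?_⟩
  rw [← e]
  have h := lintegral_VV_le hf ha
  have hae : ∀ᵐ z ∂(volume.restrict (ball (0 : ℂ) 1)),
      VV a (‖z‖ / ‖deriv f z‖) * JJ f z = KK a (hq f) z := by
    have h0 : ∀ᵐ z : ℂ ∂(volume.restrict (ball (0 : ℂ) 1)), z ≠ 0 := by
      refine ae_restrict_of_ae ?_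
      rw [ae_iff]
      simp
    filter_upwards [h0, ae_restrict_mem measurableSet_ball] with z hz0 hz
    exact VV_JJ hf ha ⟨hz, hz0⟩
  have h1 : ∫⁻ z in ball (0 : ℂ) 1, ENNReal.ofReal (VV a (‖z‖ / ‖deriv f z‖) * JJ f z) =
      ∫⁻ z in ball (0 : ℂ) 1, ENNReal.ofReal (KK a (hq f) z) :=
    lintegral_congr_ae (hae.mono fun z hz => by simp only [hz])
  have h2 : ∫⁻ z in ball (0 : ℂ) 1, ENNReal.ofReal (-(VV a (‖z‖ / ‖deriv f z‖) * JJ f z)) =
      ∫⁻ z in ball (0 : ℂ) 1, ENNReal.ofReal (-KK a (hq f) z) :=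
    lintegral_congr_ae (hae.mono fun z hz => by simp only [hz])
  rw [h1, h2] at h
  rw [integral_eq_lintegral_pos_part_sub_lintegral_neg_part iK, sub_nonpos]
  exact ENNReal.toReal_mono iK.neg.lintegral_lt_top.ne h

end

end Vale.Agent.P142.H838
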