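import Mathlib.Analysis.Complex.ExponentialBounds
import Vale.Agent.P142.H838.Star
import Vale.Agent.P142.H838.Lower

/-!
P142, endpoint form of Brennan's conjecture: the weak type estimate
`|{|f'| < l}| ≤ C l²` on the class `S`.
-/

open Complex MeasureTheory Metric Set Filter Topology
open scoped Real ComplexConjugate ENNReal

namespace Vale.Agent.P142.H838

open Vale.Agent.P142.Brn

noncomputable section

variable {f g : ℂ → ℂ} {R a : ℝ}

lemma log_lower {x : ℝ} (hx : 0 ≤ x) : 0 ≤ Real.log (1 + x) - x / (1 + x) := by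
  have h1 : 0 < 1 + x := by linarith
  have h2 := Real.one_sub_inv_le_log_of_pos h1
  have h3 : 1 - (1 + x)⁻¹ = x / (1 + x) := by field_simp; ring
  linarith

lemma log_lower' {x : ℝ} (hx : 1 ≤ x) : Real.log 2 - 1 / 2 ≤ Real.log (1 + x) - x / (1 + x) := by
  have h1 : 0 < 1 + x := by linarith
  have h2 := Real.one_sub_inv_le_log_of_pos (x := (1 + x) / 2) (by positivity)
  rw [Real.log_div h1.ne' two_ne_zero] at h2
  have h3 : x / (1 + x) - 1 / 2 = (x - 1) / (2 * (1 + x)) := by field_simp; ring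
  have h4 : 1 - ((1 + x) / 2)⁻¹ = (x - 1) / (1 + x) := by field_simp; ring
  have h5 : (x - 1) / (2 * (1 + x)) ≤ (x - 1) / (1 + x) := by
    apply div_le_div_of_nonneg_left (by linarith) h1
    linarith
  linarith

/-- Weak type estimate for `h = z / f'` from the basic inequality. -/
theorem weak_nice (hf : Nice f R) {K : ℝ}
    (hi : IntegrableOn (fun z => (1 - ‖z‖ ^ 2) * ‖hq f z‖ ^ 2) (ball 0 1))
    (hK : ∫ z in ball (0 : ℂ) 1, (1 - ‖z‖ ^ 2) * ‖hq f z‖ ^ 2 ≤ K) (ha : 0 < a) :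
    volume ({z | 1 ≤ a * ‖hq f z‖ ^ 2} ∩ ball (0 : ℂ) 1) ≤ ENNReal.ofReal (16 * K * a) := by
  obtain ⟨iL, hL⟩ := star hf ha
  have hm : Measurable (fun z => ‖hq f z‖) := by
    have : (fun z => ‖hq f z‖) = fun z => ‖z‖ / ‖deriv f z‖ := by
      funext z
      exact norm_hq f z
    rw [this]
    exact measurable_norm.div (measurable_deriv f).norm
  have hS : MeasurableSet ({z | 1 ≤ a * ‖hq f z‖ ^ 2} ∩ ball (0 : ℂ) 1) :=
    (measurableSet_le measurable_const ((hm.pow_const 2).const_mul a)).inter measurableSet_ball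
  set G : ℂ → ℝ := fun z => 4 * a * LL a (hq f) z + 4 * a * ((1 - ‖z‖ ^ 2) * ‖hq f z‖ ^ 2) with hG
  have hGi : IntegrableOn G (ball 0 1) := (iL.const_mul (4 * a)).add (hi.const_mul (4 * a))
  have hpt : ∀ z ∈ ball (0 : ℂ) 1, 2 * (Real.log (1 + a * ‖hq f z‖ ^ 2) -
      a * ‖hq f z‖ ^ 2 / (1 + a * ‖hq f z‖ ^ 2)) ≤ G z := by
    intro z hz
    rw [mem_ball_zero_iff] at hz
    have hx : 0 ≤ a * ‖hq f z‖ ^ 2 := by positivity
    have hl : Real.log (1 + a * ‖hq f z‖ ^ 2) ≤ a * ‖hq f z‖ ^ 2 := by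
      have := Real.log_le_sub_one_of_pos (WR_pos ha (hq f) z)
      linarith
    have hu : 0 ≤ 1 - ‖z‖ ^ 2 := by nlinarith [norm_nonneg z]
    have e : 4 * a * LL a (hq f) z = (4 * ‖z‖ ^ 2 - 2) * Real.log (1 + a * ‖hq f z‖ ^ 2) -
        2 * (a * ‖hq f z‖ ^ 2 / (1 + a * ‖hq f z‖ ^ 2)) := by
      have := WR_pos ha (hq f) z
      unfold LL
      field_simp
      ring
    simp only [hG]
    rw [e]
    nlinarith [mul_le_mul_of_nonneg_left hl hu]
  have hG0 : ∀ z ∈ ball (0 : ℂ) 1, 0 ≤ G z := fun z hz => by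
    have h1 := hpt z hz
    have h2 := log_lower (x := a * ‖hq f z‖ ^ 2) (by positivity)
    linarith
  have hc0 : (0.38 : ℝ) ≤ 2 * (Real.log 2 - 1 / 2) := by
    have := Real.log_two_gt_d9
    linarith
  have h1 : ENNReal.ofReal 0.38 * volume ({z | 1 ≤ a * ‖hq f z‖ ^ 2} ∩ ball (0 : ℂ) 1) ≤
      ENNReal.ofReal (4 * a * K) := by
    calc ENNReal.ofReal 0.38 * volume ({z | 1 ≤ a * ‖hq f z‖ ^ 2} ∩ ball (0 : ℂ) 1)
        = ∫⁻ _ in {z | 1 ≤ a * ‖hq f z‖ ^ 2} ∩ ball (0 : ℂ) 1, ENNReal.ofReal 0.38 := by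
          rw [setLIntegral_const]
      _ ≤ ∫⁻ z in {z | 1 ≤ a * ‖hq f z‖ ^ 2} ∩ ball (0 : ℂ) 1, ENNReal.ofReal (G z) := by
          apply setLIntegral_mono' hS
          intro z hz
          apply ENNReal.ofReal_le_ofReal
          have h2 := hpt z hz.2
          have h3 := log_lower' hz.1
          linarith
      _ ≤ ∫⁻ z in ball (0 : ℂ) 1, ENNReal.ofReal (G z) := lintegral_mono_set inter_subset_right
      _ = ENNReal.ofReal (∫ z in ball (0 : ℂ) 1, G z) := by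
          rw [ofReal_integral_eq_lintegral_ofReal hGi
            ((ae_restrict_iff' measurableSet_ball).mpr (Eventually.of_forall hG0))]
      _ ≤ ENNReal.ofReal (4 * a * K) := by
          apply ENNReal.ofReal_le_ofReal
          simp only [hG]
          rw [integral_add (iL.const_mul (4 * a)) (hi.const_mul (4 * a)), integral_const_mul,
            integral_const_mul]
          have : 0 < 4 * a := by positivity
          nlinarith
  have h2 : volume ({z | 1 ≤ a * ‖hq f z‖ ^ 2} ∩ ball (0 : ℂ) 1) ≤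
      ENNReal.ofReal (4 * a * K) / ENNReal.ofReal 0.38 := by
    rw [ENNReal.le_div_iff_mul_le (Or.inl (by simp; norm_num)) (Or.inl ENNReal.ofReal_ne_top),
      mul_comm]
    exact h1
  have hK0 : 0 ≤ K := by
    refine le_trans (setIntegral_nonneg measurableSet_ball fun z hz => ?_) hK
    rw [mem_ball_zero_iff] at hz
    have : 0 ≤ 1 - ‖z‖ ^ 2 := by nlinarith [norm_nonneg z]
    positivity
  refine h2.trans ?_
  rw [← ENNReal.ofReal_div_of_pos (by norm_num)]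
  apply ENNReal.ofReal_le_ofReal
  rw [div_le_iff₀ (by norm_num)]
  nlinarith [mul_nonneg hK0 ha.le]

/-- The star inequality at every exponent `0 < p < 2`. -/
lemma star_p (hf : Nice f R) {p : ℝ} (hp : 0 < p) (hp2 : p < 2) :
    ∫ z in ball (0 : ℂ) 1, wB f p z ≤ 0 := by
  have h1 := (blockI f R hf p hp).2
  rw [(Par6.blockP f R hf p hp hp2).2] at h1
  have h2 : 0 < 1 / p ^ 2 := by positivity
  by_contra h3
  rw [not_le] at h3
  have h4 : 0 < 1 / p ^ 2 * ∫ z in ball (0 : ℂ) 1, wB f p z := mul_pos h2 h3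
  unfold wB at h4
  linarith only [h1, h4]

lemma pt_bound {u d : ℝ} (hu0 : 0 ≤ u) (hu1 : u ≤ 1) (hd : 0 < d) (hud : u ≤ 64 * d) :
    u * (1 / d) ^ 2 ≤ 8 * d ^ (-(3 / 2 : ℝ)) := by
  have h1 : u ≤ 8 * √d := by
    rw [show (8 : ℝ) * √d = √(64 * d) by
      rw [Real.sqrt_mul (by norm_num), show (64 : ℝ) = 8 ^ 2 by norm_num,
        Real.sqrt_sq (by norm_num)]]
    apply Real.le_sqrt_of_sq_le
    nlinarith
  have h2 : (1 / d) ^ 2 = d ^ (-(3 / 2 : ℝ)) * (√d)⁻¹ := by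
    rw [Real.sqrt_eq_rpow, ← Real.rpow_neg hd.le, ← Real.rpow_add hd, one_div, inv_pow,
      ← Real.rpow_two, ← Real.rpow_neg hd.le]
    norm_num
  have hs : 0 < √d := Real.sqrt_pos.mpr hd
  have h3 : 0 < d ^ (-(3 / 2 : ℝ)) := Real.rpow_pos_of_pos hd _
  rw [h2]
  calc u * (d ^ (-(3 / 2 : ℝ)) * (√d)⁻¹) ≤ (8 * √d) * (d ^ (-(3 / 2 : ℝ)) * (√d)⁻¹) := by gcongr
    _ = 8 * d ^ (-(3 / 2 : ℝ)) := by field_simp

/-- Uniform bound of the weighted integral of `|h|²` on the class `S`. -/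
theorem unif_K : ∃ K : ℝ, 0 ≤ K ∧ ∀ (g : ℂ → ℂ) (R : ℝ), Nice g R → g ∈ ClassS →
    IntegrableOn (fun z => (1 - ‖z‖ ^ 2) * ‖hq g z‖ ^ 2) (ball 0 1) ∧
    ∫ z in ball (0 : ℂ) 1, (1 - ‖z‖ ^ 2) * ‖hq g z‖ ^ 2 ≤ K := by
  set q : ℝ := √(15 / 16) with hq1
  have hq1 : q < 1 := by
    rw [hq1, Real.sqrt_lt' one_pos]
    norm_num
  set m : ℝ := (1 - q) / 32 with hm
  have hm0 : 0 < m := by
    rw [hm]
    linarith
  set K1 : ℝ := m ^ (-(3 / 2) : ℝ) * (1 + 16 / (2 - 3 / 2)) * π with hK1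
  have hK10 : 0 ≤ K1 := by
    have := Real.rpow_pos_of_pos hm0 (-(3 / 2) : ℝ)
    have := Real.pi_pos
    positivity
  refine ⟨8 * K1, by positivity, fun g R hg hS => ?_⟩
  have hsub : closedBall (0 : ℂ) 1 ⊆ ball 0 R := closedBall_subset_ball hg.one_lt
  have hc : ContinuousOn (deriv g) (closedBall 0 1) :=
    (hg.diff.deriv isOpen_ball).continuousOn.mono hsub
  have hne : ∀ z ∈ closedBall (0 : ℂ) 1, deriv g z ≠ 0 := fun z hz => nice_ne hg z (hsub hz)
  have hch : ContinuousOn (hq g) (closedBall 0 1) := (hq_diff hg).continuousOn.mono hsub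
  have hlow : ∀ z : ℂ, ‖z‖ ^ 2 ≤ (3 / 2 + 6) / 8 → m ≤ ‖deriv g z‖ := by
    intro z hz
    have h1 : ‖z‖ ≤ q := Real.le_sqrt_of_sq_le (by linarith)
    have h2 := deriv_ge hS (z := z) (by rw [mem_ball_zero_iff]; linarith)
    rw [hm]
    linarith
  have hB := bound_of_star (g := g) (p := 3 / 2) (m := m) (by norm_num) (by norm_num) hm0 hc hne
    hlow (star_p hg (by norm_num) (by norm_num))
  have hi : IntegrableOn (fun z => (1 - ‖z‖ ^ 2) * ‖hq g z‖ ^ 2) (ball 0 1) := by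
    have h1 : ContinuousOn (fun z : ℂ => (1 - ‖z‖ ^ 2) * ‖hq g z‖ ^ 2) (closedBall 0 1) := by
      have : ContinuousOn (fun z : ℂ => 1 - ‖z‖ ^ 2) (closedBall (0 : ℂ) 1) := by fun_prop
      exact this.mul (hch.norm.pow 2)
    exact (h1.integrableOn_compact (isCompact_closedBall 0 1)).mono_set ball_subset_closedBall
  refine ⟨hi, ?_⟩
  have hiN : IntegrableOn (fun z => ‖deriv g z‖ ^ (-(3 / 2 : ℝ))) (ball (0 : ℂ) 1) := by
    have h1 : ContinuousOn (fun z => ‖deriv g z‖ ^ (-(3 / 2 : ℝ))) (closedBall (0 : ℂ) 1) := by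
      apply ContinuousOn.rpow_const hc.norm
      intro z hz
      exact Or.inl (norm_ne_zero_iff.mpr (hne z hz))
    exact (h1.integrableOn_compact (isCompact_closedBall 0 1)).mono_set ball_subset_closedBall
  have h2 : ∫ z in ball (0 : ℂ) 1, ‖deriv g z‖ ^ (-(3 / 2 : ℝ)) ≤ K1 := by
    rw [integral_eq_lintegral_of_nonneg_ae (Eventually.of_forall fun z =>
      Real.rpow_nonneg (norm_nonneg _) _) hiN.aestronglyMeasurable]
    have := ENNReal.toReal_mono ENNReal.ofReal_ne_top hB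
    rwa [ENNReal.toReal_ofReal hK10] at this
  calc ∫ z in ball (0 : ℂ) 1, (1 - ‖z‖ ^ 2) * ‖hq g z‖ ^ 2
      ≤ ∫ z in ball (0 : ℂ) 1, 8 * ‖deriv g z‖ ^ (-(3 / 2 : ℝ)) := by
        apply setIntegral_mono_on hi (hiN.const_mul 8) measurableSet_ball
        intro z hz
        have hz1 : ‖z‖ < 1 := by simpa using hz
        have hd : 0 < ‖deriv g z‖ := norm_pos_iff.mpr (hne z (ball_subset_closedBall hz))
        have hd2 := deriv_ge hS hz
        have h3 : 0 ≤ 1 - ‖z‖ ^ 2 := by nlinarith [norm_nonneg z]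
        have h4 := pt_bound (u := 1 - ‖z‖ ^ 2) (d := ‖deriv g z‖) h3
          (by nlinarith [sq_nonneg ‖z‖]) hd (by nlinarith [norm_nonneg z])
        refine le_trans ?_ h4
        apply mul_le_mul_of_nonneg_left _ h3
        rw [norm_hq]
        apply pow_le_pow_left₀ (by positivity)
        gcongr
    _ = 8 * ∫ z in ball (0 : ℂ) 1, ‖deriv g z‖ ^ (-(3 / 2 : ℝ)) := integral_const_mul _ _
    _ ≤ 8 * K1 := by linarith

end

end Vale.Agent.P142.H838
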