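import Vale.Agent.P142.H838.Weak

/-!
P142, endpoint form of Brennan's conjecture: the weak type estimate
`|{|f'| < l}| ≤ C l²` on the class `S`, by dilation.
-/

open Complex MeasureTheory Metric Set Filter Topology
open scoped Real ComplexConjugate ENNReal

namespace Vale.Agent.P142.H838

open Vale.Agent.P142.Brn

noncomputable section

variable {f : ℂ → ℂ}

/-- dilation -/
def dil (f : ℂ → ℂ) (l : ℝ) (z : ℂ) : ℂ := (l : ℂ)⁻¹ * f ((l : ℂ) * z)

lemma dil_hasDerivAt (hf : DifferentiableOn ℂ f (ball 0 1)) {l : ℝ} (hl : 0 < l) {z : ℂ}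
    (hz : (l : ℂ) * z ∈ ball (0 : ℂ) 1) : HasDerivAt (dil f l) (deriv f ((l : ℂ) * z)) z := by
  have h1 : HasDerivAt f (deriv f ((l : ℂ) * z)) ((l : ℂ) * z) :=
    (hf.differentiableAt (isOpen_ball.mem_nhds hz)).hasDerivAt
  have h2 : HasDerivAt (fun z : ℂ => (l : ℂ) * z) (l : ℂ) z := by
    simpa using (hasDerivAt_id z).const_mul (l : ℂ)
  have h3 := (h1.comp z h2).const_mul ((l : ℂ)⁻¹)
  refine h3.congr_deriv ?_
  have : (l : ℂ) ≠ 0 := by exact_mod_cast hl.ne'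
  field_simp

lemma dil_maps {l : ℝ} (hl : 0 < l) : MapsTo (fun z : ℂ => (l : ℂ) * z) (ball 0 (1 / l))
    (ball 0 1) := by
  intro z hz
  rw [mem_ball_zero_iff] at hz ⊢
  rw [norm_mul, norm_real, Real.norm_eq_abs, abs_of_pos hl]
  rwa [lt_div_iff₀ hl, mul_comm] at hz

lemma dil_nice (hf : f ∈ ClassS) {l : ℝ} (hl : 0 < l) (hl1 : l < 1) :
    Nice (dil f l) (1 / l) ∧ dil f l ∈ ClassS := by
  have h1 : 1 < 1 / l := by
    rw [lt_div_iff₀ hl]
    linarith
  have hlc : (l : ℂ) ≠ 0 := by exact_mod_cast hl.ne'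
  have hm := dil_maps hl
  have hd : DifferentiableOn ℂ (dil f l) (ball 0 (1 / l)) := fun z hz =>
    (dil_hasDerivAt hf.1 hl (hm hz)).differentiableAt.differentiableWithinAt
  have hi : InjOn (dil f l) (ball 0 (1 / l)) := by
    intro x hx y hy hxy
    have := mul_left_cancel₀ (inv_ne_zero hlc) hxy
    exact mul_left_cancel₀ hlc (hf.2.1 (hm hx) (hm hy) this)
  have hsub : ball (0 : ℂ) 1 ⊆ ball 0 (1 / l) := ball_subset_ball h1.le
  refine ⟨⟨h1, hd, hi⟩, hd.mono hsub, hi.mono hsub, ?_, ?_⟩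
  · unfold dil
    rw [mul_zero, hf.2.2.1, mul_zero]
  · rw [(dil_hasDerivAt hf.1 hl (z := 0) (by simp)).deriv, mul_zero, hf.2.2.2]

/-- The weak type estimate for `z / f'` on the class `S`. -/
theorem weak_h : ∃ K : ℝ, 0 ≤ K ∧ ∀ f ∈ ClassS, ∀ a : ℝ, 0 < a →
    volume ({z | 1 < a * (‖z‖ / ‖deriv f z‖) ^ 2} ∩ ball (0 : ℂ) 1) ≤
      ENNReal.ofReal (K * a) := by
  obtain ⟨K, hK0, hK⟩ := unif_K
  refine ⟨16 * K, by positivity, fun f hf a ha => ?_⟩
  have hU := univ_of_classS hf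
  set ρ : ℕ → ℝ := fun n => 1 - 1 / (n + 2) with hρ
  have hρ1 : ∀ n, ρ n < 1 := fun n => by
    have : (0 : ℝ) < 1 / (n + 2) := by positivity
    simp only [hρ]; linarith only [this]
  have hρ2 : ∀ n, 1 / 2 ≤ ρ n := fun n => by
    have : (1 : ℝ) / (n + 2) ≤ 1 / 2 := by
      apply one_div_le_one_div_of_le (by norm_num)
      have : (0 : ℝ) ≤ n := Nat.cast_nonneg n
      linarith
    simp only [hρ]; linarith only [this]
  have hρlim : Tendsto ρ atTop (𝓝 1) := by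
    have h1 : Tendsto (fun n : ℕ => 1 / ((n : ℝ) + 2)) atTop (𝓝 0) := by
      have := (tendsto_const_div_atTop_nhds_zero_nat (1 : ℝ)).comp (tendsto_add_atTop_nat 2)
      refine this.congr fun n => ?_
      simp
    have h2 := (tendsto_const_nhds (x := (1 : ℝ))).sub h1
    rw [sub_zero] at h2
    exact h2
  have hρ0 : ∀ n, 0 < ρ n := fun n => by linarith [hρ2 n]
  have hmY : ∀ g : ℂ → ℂ, Measurable (fun z => ‖z‖ / ‖deriv g z‖) := fun g =>
    measurable_norm.div (measurable_deriv g).norm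
  have hbound : ∀ n, volume ({z | 1 ≤ a * (‖z‖ / ‖deriv (dil f (ρ n)) z‖) ^ 2} ∩ ball (0 : ℂ) 1) ≤
      ENNReal.ofReal (16 * K * a) := by
    intro n
    obtain ⟨hN, hS⟩ := dil_nice hf (hρ0 n) (hρ1 n)
    obtain ⟨hi, hk⟩ := hK _ _ hN hS
    have := weak_nice hN hi hk ha
    simpa only [norm_hq] using this
  have hmS : ∀ n, MeasurableSet {z : ℂ | 1 ≤ a * (‖z‖ / ‖deriv (dil f (ρ n)) z‖) ^ 2} := fun n =>
    measurableSet_le measurable_const (((hmY _).pow_const 2).const_mul a)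
  have hmS' : MeasurableSet {z : ℂ | 1 < a * (‖z‖ / ‖deriv f z‖) ^ 2} :=
    measurableSet_lt measurable_const (((hmY _).pow_const 2).const_mul a)
  have hfd : ContinuousOn (deriv f) (ball (0 : ℂ) 1) := (hf.1.deriv isOpen_ball).continuousOn
  -- pointwise
  have hpt : ∀ z ∈ ball (0 : ℂ) 1,
      ({z : ℂ | 1 < a * (‖z‖ / ‖deriv f z‖) ^ 2}).indicator (fun _ => (1 : ℝ≥0∞)) z ≤
      liminf (fun n => ({z : ℂ | 1 ≤ a * (‖z‖ / ‖deriv (dil f (ρ n)) z‖) ^ 2}).indicator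
        (fun _ => (1 : ℝ≥0∞)) z) atTop := by
    intro z hz
    by_cases h : 1 < a * (‖z‖ / ‖deriv f z‖) ^ 2
    · rw [indicator_of_mem (show z ∈ {z : ℂ | 1 < a * (‖z‖ / ‖deriv f z‖) ^ 2} from h)]
      have h1 : Tendsto (fun n => (ρ n : ℂ) * z) atTop (𝓝 z) := by
        have := ((continuous_ofReal.tendsto 1).comp hρlim).mul_const z
        simpa using this
      have h2 : Tendsto (fun n => deriv f ((ρ n : ℂ) * z)) atTop (𝓝 (deriv f z)) :=
        ((hfd.continuousAt (isOpen_ball.mem_nhds hz)).tendsto).comp h1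
      have h3 : Tendsto (fun n => a * (‖z‖ / ‖deriv f ((ρ n : ℂ) * z)‖) ^ 2) atTop
          (𝓝 (a * (‖z‖ / ‖deriv f z‖) ^ 2)) := by
        refine ((tendsto_const_nhds.div h2.norm ?_).pow 2).const_mul a
        exact norm_ne_zero_iff.mpr (univ_deriv_ne_zero hU hz)
      have h4 : ∀ᶠ n in atTop, 1 < a * (‖z‖ / ‖deriv f ((ρ n : ℂ) * z)‖) ^ 2 :=
        h3.eventually (lt_mem_nhds h)
      refine le_liminf_of_le (by isBoundedDefault) ?_
      filter_upwards [h4] with n hn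
      rw [indicator_of_mem]
      change 1 ≤ a * (‖z‖ / ‖deriv (dil f (ρ n)) z‖) ^ 2
      rw [(dil_hasDerivAt hf.1 (hρ0 n) (dil_mem (hρ0 n) (hρ1 n).le hz)).deriv]
      exact hn.le
    · rw [indicator_of_notMem (show z ∉ {z : ℂ | 1 < a * (‖z‖ / ‖deriv f z‖) ^ 2} from h)]
      exact bot_le
  calc volume ({z | 1 < a * (‖z‖ / ‖deriv f z‖) ^ 2} ∩ ball (0 : ℂ) 1)
      = ∫⁻ z in ball (0 : ℂ) 1,
        ({z : ℂ | 1 < a * (‖z‖ / ‖deriv f z‖) ^ 2}).indicator (fun _ => (1 : ℝ≥0∞)) z := by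
        rw [lintegral_indicator hmS', setLIntegral_one, Measure.restrict_apply hmS']
    _ ≤ ∫⁻ z in ball (0 : ℂ) 1, liminf (fun n =>
        ({z : ℂ | 1 ≤ a * (‖z‖ / ‖deriv (dil f (ρ n)) z‖) ^ 2}).indicator
        (fun _ => (1 : ℝ≥0∞)) z) atTop := setLIntegral_mono' measurableSet_ball hpt
    _ ≤ liminf (fun n => ∫⁻ z in ball (0 : ℂ) 1,
        ({z : ℂ | 1 ≤ a * (‖z‖ / ‖deriv (dil f (ρ n)) z‖) ^ 2}).indicator
        (fun _ => (1 : ℝ≥0∞)) z) atTop := by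
        apply lintegral_liminf_le
        intro n
        exact measurable_const.indicator (hmS n)
    _ ≤ ENNReal.ofReal (16 * K * a) := by
        apply liminf_le_of_frequently_le'
        refine Frequently.of_forall fun n => ?_
        rw [lintegral_indicator (hmS n), setLIntegral_one, Measure.restrict_apply (hmS n)]
        exact hbound n

/-- **Weak type estimate** on the class `S`: `|{|f'| < l}| ≤ C l²`. -/
theorem weak_low : ∃ C : ℝ, 0 < C ∧ ∀ f ∈ ClassS, ∀ l : ℝ, 0 < l →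
    volume {z | z ∈ ball (0 : ℂ) 1 ∧ ‖deriv f z‖ < l} ≤ ENNReal.ofReal (C * l ^ 2) := by
  obtain ⟨K, hK0, hK⟩ := weak_h
  have hpi := Real.pi_pos
  refine ⟨4 * K + 4096 * π, by positivity, fun f hf l hl => ?_⟩
  rcases le_or_gt l (1 / 64) with h | h
  · have hsub : {z | z ∈ ball (0 : ℂ) 1 ∧ ‖deriv f z‖ < l} ⊆
        {z | 1 < (4 * l ^ 2) * (‖z‖ / ‖deriv f z‖) ^ 2} ∩ ball (0 : ℂ) 1 := by
      rintro z ⟨hz, hd⟩
      refine ⟨?_, hz⟩
      have h1 := deriv_ge hf hz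
      have h2 : 0 < ‖deriv f z‖ := norm_pos_iff.mpr (univ_deriv_ne_zero (univ_of_classS hf) hz)
      have h3 : 1 / 2 < ‖z‖ := by linarith
      change 1 < (4 * l ^ 2) * (‖z‖ / ‖deriv f z‖) ^ 2
      rw [div_pow, ← mul_div_assoc, lt_div_iff₀ (by positivity), one_mul]
      have h4 : ‖deriv f z‖ ^ 2 < l ^ 2 := pow_lt_pow_left₀ hd h2.le two_ne_zero
      have h5 : 1 ≤ 4 * ‖z‖ ^ 2 := by nlinarith
      have h6 := mul_le_mul_of_nonneg_left h5 (sq_nonneg l)
      linarith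
    refine (measure_mono hsub).trans ((hK f hf (4 * l ^ 2) (by positivity)).trans ?_)
    apply ENNReal.ofReal_le_ofReal
    nlinarith [sq_nonneg l]
  · have hsub : {z | z ∈ ball (0 : ℂ) 1 ∧ ‖deriv f z‖ < l} ⊆ ball (0 : ℂ) 1 := fun z hz => hz.1
    refine (measure_mono hsub).trans ?_
    rw [Complex.volume_ball, ENNReal.ofReal_one, one_pow, one_mul]
    have e : ((NNReal.pi : NNReal) : ℝ≥0∞) = ENNReal.ofReal π := by
      rw [ENNReal.ofReal, Real.toNNReal_of_nonneg hpi.le]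
      rfl
    rw [e]
    apply ENNReal.ofReal_le_ofReal
    have h1 : 1 ≤ 4096 * l ^ 2 := by nlinarith
    nlinarith [mul_nonneg hK0 (sq_nonneg l)]

end

end Vale.Agent.P142.H838
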